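import Vale.Agent.Snaky.Types

namespace Vale.Agent.Snaky.FD

open Vale.Agent.Snaky

def d0 : Tr :=
(.node (nat_lit 128)
(.node (nat_lit 64)
(.node (nat_lit 32)
(.node (nat_lit 16)
(.node (nat_lit 8)
(.node (nat_lit 4)
(.node (nat_lit 2)
(.node (nat_lit 1)
(.leaf (.mk (nat_lit 0) (nat_lit 0x600000003c000000000000000000000000000000000000000000000000000) (nat_lit 0) .nil))
(.leaf (.mk (nat_lit 0) (nat_lit 0x780000000c000000000000000000000000000000000000000000000000000) (nat_lit 0) .nil)))
(.node (nat_lit 1)
(.leaf (.mk (nat_lit 0) (nat_lit 0x800000008000000080000000c00000004000000000000000000000000000000000000000000000000000) (nat_lit 0) .nil))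
(.leaf (.mk (nat_lit 0) (nat_lit 0x80000000c000000040000000400000004000000000000000000000000000000000000000000000000000) (nat_lit 0) .nil))))
(.node (nat_lit 2)
(.node (nat_lit 1)
(.leaf (.mk (nat_lit 0) (nat_lit 0xc00000078000000000000000000000000000000000000000000000000000) (nat_lit 0) .nil))
(.leaf (.mk (nat_lit 0) (nat_lit 0x400000004000000040000000c00000008000000000000000000000000000000000000000000000000000) (nat_lit 0) .nil)))
(.node (nat_lit 1)
(.leaf (.mk (nat_lit 0) (nat_lit 0x40000000c000000080000000800000008000000000000000000000000000000000000000000000000000) (nat_lit 0) .nil))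
(.leaf (.mk (nat_lit 0) (nat_lit 0x3c00000060000000000000000000000000000000000000000000000000000) (nat_lit 0) .nil)))))
(.node (nat_lit 4)
(.node (nat_lit 2)
(.node (nat_lit 1)
(.leaf (.mk (nat_lit 12) (nat_lit 0x800000008000000000000000000000000000000000000000000000000000) (nat_lit 0x150000001f0000001f0000003fc000001fc000003fc00001f7c00000f7c00003ffc00001ff800003ffc00000ff0000000000000000000) (.cons (nat_lit 687) (nat_lit 15188) (nat_lit 512) (.cons (nat_lit 687) (nat_lit 15189) (nat_lit 512) (.cons (nat_lit 783) (nat_lit 15190) (nat_lit 512) (.cons (nat_lit 783) (nat_lit 15191) (nat_lit 512) (.cons (nat_lit 783) (nat_lit 15192) (nat_lit 512) (.cons (nat_lit 720) (nat_lit 15193) (nat_lit 512) (.cons (nat_lit 783) (nat_lit 15194) (nat_lit 512) (.cons (nat_lit 717) (nat_lit 15195) (nat_lit 512) (.cons (nat_lit 687) (nat_lit 15196) (nat_lit 512) (.cons (nat_lit 687) (nat_lit 15197) (nat_lit 512) (.cons (nat_lit 718) (nat_lit 15198) (nat_lit 512) (.cons (nat_lit 687) (nat_lit 15199) (nat_lit 512) (.cons (nat_lit 687) (nat_lit 15200) (nat_lit 512) (.cons (nat_lit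 687) (nat_lit 15201) (nat_lit 512) (.cons (nat_lit 687) (nat_lit 15202) (nat_lit 512) .nil)))))))))))))))))
(.leaf (.mk (nat_lit 11) (nat_lit 0xc00000000000000000000000000000000000000000000000000000000000) (nat_lit 0xe0000003f800000ff8000007f800000ffe0000033e00003fff00001ffe00001ffe000007fc000007e0000007e0000000e000) (.cons (nat_lit 749) (nat_lit 14724) (nat_lit 512) (.cons (nat_lit 752) (nat_lit 14725) (nat_lit 512) (.cons (nat_lit 749) (nat_lit 14726) (nat_lit 512) (.cons (nat_lit 749) (nat_lit 14727) (nat_lit 512) (.cons (nat_lit 782) (nat_lit 14728) (nat_lit 512) (.cons (nat_lit 749) (nat_lit 14729) (nat_lit 512) (.cons (nat_lit 749) (nat_lit 14730) (nat_lit 512) (.cons (nat_lit 686) (nat_lit 14731) (nat_lit 512) (.cons (nat_lit 749) (nat_lit 14732) (nat_lit 512) (.cons (nat_lit 749) (nat_lit 14733) (nat_lit 512) .nil)))))))))))))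
(.node (nat_lit 1)
(.leaf (.mk (nat_lit 11) (nat_lit 0x800000008000000000000000000000000000000000000000000000000000) (nat_lit 0x1f0000001f800000ffe00001ffe00000ffe00003d7f00003f7f00003fff00003ffc00001ffe000007f8000003f0000003c000) (.cons (nat_lit 783) (nat_lit 13737) (nat_lit 512) (.cons (nat_lit 687) (nat_lit 11457) (nat_lit 512) (.cons (nat_lit 687) (nat_lit 13738) (nat_lit 512) (.cons (nat_lit 717) (nat_lit 13739) (nat_lit 512) (.cons (nat_lit 718) (nat_lit 13740) (nat_lit 512) (.cons (nat_lit 687) (nat_lit 13741) (nat_lit 512) (.cons (nat_lit 783) (nat_lit 13742) (nat_lit 512) (.cons (nat_lit 687) (nat_lit 13743) (nat_lit 512) (.cons (nat_lit 687) (nat_lit 22) (nat_lit 512) (.cons (nat_lit 783) (nat_lit 13744) (nat_lit 512) (.cons (nat_lit 783) (nat_lit 13745) (nat_lit 512) (.cons (nat_lit 783) (nat_lit 13746) (nat_lit 512) .nil))))))))))))))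
(.leaf (.mk (nat_lit 11) (nat_lit 0x800000008000000000000000000000000000000000000000000000000000) (nat_lit 0x4000000170000001f8000005f800001ffe00000ffe00001efe00007f7f00003f7f00007fff00003fff00001ffc00000ff8000007f80000074000) (.cons (nat_lit 687) (nat_lit 13) (nat_lit 512) (.cons (nat_lit 783) (nat_lit 11443) (nat_lit 512) (.cons (nat_lit 718) (nat_lit 11444) (nat_lit 512) (.cons (nat_lit 687) (nat_lit 11445) (nat_lit 512) (.cons (nat_lit 783) (nat_lit 11446) (nat_lit 512) (.cons (nat_lit 783) (nat_lit 11447) (nat_lit 512) (.cons (nat_lit 687) (nat_lit 11448) (nat_lit 512) (.cons (nat_lit 687) (nat_lit 11449) (nat_lit 512) (.cons (nat_lit 720) (nat_lit 11450) (nat_lit 512) (.cons (nat_lit 814) (nat_lit 11451) (nat_lit 512) (.cons (nat_lit 750) (nat_lit 11452) (nat_lit 512) (.cons (nat_lit 783) (nat_lit 11453) (nat_lit 512) (.cons (nat_lit 718) (nat_lit 11454) (nat_lit 512) (.cons (nat_lit 783) (nat_lit 11455) (nat_lit 512) (.cons (nat_lit 783) (nat_lit 11456) (nat_lit 512) (.cons (nat_lit 687) (nat_lit 11457) (nat_lit 512) .nil))))))))))))))))))))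
(.node (nat_lit 2)
(.node (nat_lit 1)
(.leaf (.mk (nat_lit 17) (nat_lit 0x800000008000000000000000000000000000000000000000000000000000) (nat_lit 0xfff00001fff00007fff00007fff00007fff0000ffff0000ffff0000fe7f0000ff7f0000ffff00007fff00007fff00007fff00003fff00000bfe00) (.cons (nat_lit 687) (nat_lit 13) (nat_lit 512) (.cons (nat_lit 783) (nat_lit 14) (nat_lit 512) (.cons (nat_lit 783) (nat_lit 15) (nat_lit 512) (.cons (nat_lit 783) (nat_lit 16) (nat_lit 512) (.cons (nat_lit 687) (nat_lit 17) (nat_lit 512) (.cons (nat_lit 718) (nat_lit 18) (nat_lit 512) (.cons (nat_lit 748) (nat_lit 19) (nat_lit 512) (.cons (nat_lit 687) (nat_lit 20) (nat_lit 512) (.cons (nat_lit 783) (nat_lit 21) (nat_lit 512) (.cons (nat_lit 687) (nat_lit 22) (nat_lit 512) (.cons (nat_lit 783) (nat_lit 23) (nat_lit 512) (.cons (nat_lit 718) (nat_lit 24) (nat_lit 512) .nil))))))))))))))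
(.leaf (.mk (nat_lit 8) (nat_lit 0x800000008000000080000000000000000000000000000000000000000000) (nat_lit 0x40000000c0000000c0000000400000017000000378000007f0000001f0000001c0000001c00000000000) (.cons (nat_lit 655) (nat_lit 3243) (nat_lit 515) (.cons (nat_lit 783) (nat_lit 11437) (nat_lit 512) (.cons (nat_lit 655) (nat_lit 5677) (nat_lit 515) (.cons (nat_lit 655) (nat_lit 922) (nat_lit 512) (.cons (nat_lit 655) (nat_lit 9679) (nat_lit 483) (.cons (nat_lit 655) (nat_lit 11438) (nat_lit 512) (.cons (nat_lit 656) (nat_lit 3121) (nat_lit 515) .nil))))))))))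
(.node (nat_lit 1)
(.leaf (.mk (nat_lit 8) (nat_lit 0x80000000800000008000000000000000000000000000000000000000000000000000) (nat_lit 0x140000001f0000003f8000007780000007c00000040000001c0000001c0000001c000000040000000000000000000) (.cons (nat_lit 815) (nat_lit 2608) (nat_lit 483) (.cons (nat_lit 687) (nat_lit 11423) (nat_lit 512) (.cons (nat_lit 814) (nat_lit 11424) (nat_lit 512) (.cons (nat_lit 687) (nat_lit 2006) (nat_lit 515) (.cons (nat_lit 815) (nat_lit 11425) (nat_lit 512) (.cons (nat_lit 687) (nat_lit 11426) (nat_lit 512) (.cons (nat_lit 687) (nat_lit 2067) (nat_lit 483) .nil)))))))))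
(.leaf (.mk (nat_lit 11) (nat_lit 0x80000000800000008000000000000000000000000000000000000000000000000000) (nat_lit 0x1f0000001f000000ffc00001ffe00001f7c00001e7e0000077c000006f80000007c0000007000000000000000000000000000) (.cons (nat_lit 815) (nat_lit 2608) (nat_lit 483) (.cons (nat_lit 814) (nat_lit 11312) (nat_lit 512) (.cons (nat_lit 815) (nat_lit 11313) (nat_lit 512) (.cons (nat_lit 815) (nat_lit 11245) (nat_lit 512) (.cons (nat_lit 782) (nat_lit 11314) (nat_lit 512) (.cons (nat_lit 815) (nat_lit 11315) (nat_lit 512) (.cons (nat_lit 815) (nat_lit 11316) (nat_lit 512) (.cons (nat_lit 815) (nat_lit 11317) (nat_lit 512) (.cons (nat_lit 784) (nat_lit 11318) (nat_lit 512) .nil)))))))))))))))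
(.node (nat_lit 8)
(.node (nat_lit 4)
(.node (nat_lit 2)
(.node (nat_lit 1)
(.leaf (.mk (nat_lit 10) (nat_lit 0x80000000800000008000000000000000000000000000000000000000000000000000) (nat_lit 0x170000001f800000fff0000077e00000e7f0000077800000ff8000001a80000002000000000000000000000000000) (.cons (nat_lit 815) (nat_lit 11243) (nat_lit 512) (.cons (nat_lit 815) (nat_lit 11244) (nat_lit 512) (.cons (nat_lit 815) (nat_lit 11245) (nat_lit 512) (.cons (nat_lit 815) (nat_lit 11246) (nat_lit 512) (.cons (nat_lit 782) (nat_lit 11247) (nat_lit 512) (.cons (nat_lit 815) (nat_lit 11248) (nat_lit 512) .nil))))))))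
(.leaf (.mk (nat_lit 9) (nat_lit 0x800000008000000080000000000000000000000000000000000000000000) (nat_lit 0x18000000180000001e0000000700000077800000f70000007f800000fc0000001c0000001c00000014000) (.cons (nat_lit 655) (nat_lit 11187) (nat_lit 512) (.cons (nat_lit 783) (nat_lit 11188) (nat_lit 512) (.cons (nat_lit 655) (nat_lit 11189) (nat_lit 512) (.cons (nat_lit 654) (nat_lit 1912) (nat_lit 512) (.cons (nat_lit 655) (nat_lit 11190) (nat_lit 512) (.cons (nat_lit 655) (nat_lit 11191) (nat_lit 512) (.cons (nat_lit 720) (nat_lit 11192) (nat_lit 512) .nil))))))))))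
(.node (nat_lit 1)
(.leaf (.mk (nat_lit 10) (nat_lit 0x80000000c000000000000000000000000000000000000000000000000000) (nat_lit 0xa0000000f8000007fc000007ff0000077e00001e7f00001f3e00001fff00001ffe00000ffe00001ffc000003f8000003a800) (.cons (nat_lit 717) (nat_lit 10317) (nat_lit 512) (.cons (nat_lit 720) (nat_lit 10318) (nat_lit 512) (.cons (nat_lit 717) (nat_lit 10319) (nat_lit 512) (.cons (nat_lit 716) (nat_lit 10320) (nat_lit 512) (.cons (nat_lit 717) (nat_lit 10321) (nat_lit 512) (.cons (nat_lit 720) (nat_lit 10322) (nat_lit 512) (.cons (nat_lit 717) (nat_lit 10323) (nat_lit 512) (.cons (nat_lit 720) (nat_lit 10324) (nat_lit 512) (.cons (nat_lit 720) (nat_lit 10325) (nat_lit 512) (.cons (nat_lit 687) (nat_lit 10326) (nat_lit 512) (.cons (nat_lit 750) (nat_lit 10327) (nat_lit 512) (.cons (nat_lit 720) (nat_lit 10328) (nat_lit 512) (.cons (nat_lit 720) (nat_lit 10329) (nat_lit 512) (.cons (nat_lit 720) (nat_lit 10330) (nat_lit 512) .nil))))))))))))))))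
(.leaf (.mk (nat_lit 16) (nat_lit 0x900000008000000000000000000000000000000000000000000000000000) (nat_lit 0xfff00001fff00003fff00001fff00003fff00003fff00007fff00007e6f00007f7f00007f7f00007fff00007fff00007fff00003f7f00000a2e00) (.cons (nat_lit 749) (nat_lit 2413) (nat_lit 512) (.cons (nat_lit 749) (nat_lit 2414) (nat_lit 512) (.cons (nat_lit 749) (nat_lit 2415) (nat_lit 512) (.cons (nat_lit 749) (nat_lit 2416) (nat_lit 512) (.cons (nat_lit 783) (nat_lit 2417) (nat_lit 512) (.cons (nat_lit 750) (nat_lit 2418) (nat_lit 512) (.cons (nat_lit 783) (nat_lit 2419) (nat_lit 512) (.cons (nat_lit 716) (nat_lit 2420) (nat_lit 512) (.cons (nat_lit 716) (nat_lit 2421) (nat_lit 512) (.cons (nat_lit 749) (nat_lit 2422) (nat_lit 512) (.cons (nat_lit 815) (nat_lit 2423) (nat_lit 512) (.cons (nat_lit 815) (nat_lit 2424) (nat_lit 512) (.cons (nat_lit 749) (nat_lit 2425) (nat_lit 512) (.cons (nat_lit 749) (nat_lit 2426) (nat_lit 512) (.cons (nat_lit 749) (nat_lit 2427) (nat_lit 512) (.cons (nat_lit 716) (nat_lit 2428) (nat_lit 512) (.cons (nat_lit 749) (nat_lit 2429) (nat_lit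 512) .nil)))))))))))))))))))))
(.node (nat_lit 2)
(.node (nat_lit 1)
(.leaf (.mk (nat_lit 13) (nat_lit 0x800000008000000080000000000000000000000000000000000000000000) (nat_lit 0xa2800000f7800001ffc00001ffc00001ffc00001e3c00001f7c00001f7c00001ffc00000ff800000ff8000003c00000010000) (.cons (nat_lit 654) (nat_lit 1909) (nat_lit 512) (.cons (nat_lit 783) (nat_lit 1910) (nat_lit 512) (.cons (nat_lit 783) (nat_lit 1911) (nat_lit 512) (.cons (nat_lit 654) (nat_lit 1912) (nat_lit 512) (.cons (nat_lit 688) (nat_lit 921) (nat_lit 512) (.cons (nat_lit 622) (nat_lit 1913) (nat_lit 512) (.cons (nat_lit 783) (nat_lit 1914) (nat_lit 512) (.cons (nat_lit 783) (nat_lit 1915) (nat_lit 512) (.cons (nat_lit 783) (nat_lit 1916) (nat_lit 512) .nil)))))))))))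
(.leaf (.mk (nat_lit 10) (nat_lit 0x80000000800000008000000000000000000000000000000000000000000000000000) (nat_lit 0xe7000000ef000007ff000007ffc00007ffe0000ffff0000ff7e0000fe7f0000ff380000fff000007ff800003f4000000000000000000000000000) (.cons (nat_lit 815) (nat_lit 561) (nat_lit 512) (.cons (nat_lit 688) (nat_lit 1033) (nat_lit 512) (.cons (nat_lit 687) (nat_lit 1034) (nat_lit 512) (.cons (nat_lit 782) (nat_lit 1035) (nat_lit 512) (.cons (nat_lit 784) (nat_lit 1036) (nat_lit 512) (.cons (nat_lit 786) (nat_lit 1037) (nat_lit 512) .nil)))))))))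
(.node (nat_lit 1)
(.leaf (.mk (nat_lit 8) (nat_lit 0x800000008000000080000000000000000000000000000000000000000000) (nat_lit 0x4000000170000001f80000007800000f7000000f7000000ff000000fc0000001c0000001c00000000000) (.cons (nat_lit 654) (nat_lit 919) (nat_lit 512) (.cons (nat_lit 654) (nat_lit 920) (nat_lit 512) (.cons (nat_lit 688) (nat_lit 921) (nat_lit 512) (.cons (nat_lit 655) (nat_lit 922) (nat_lit 512) (.cons (nat_lit 783) (nat_lit 923) (nat_lit 512) (.cons (nat_lit 655) (nat_lit 924) (nat_lit 512) (.cons (nat_lit 750) (nat_lit 925) (nat_lit 512) (.cons (nat_lit 656) (nat_lit 926) (nat_lit 512) .nil))))))))))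
(.leaf (.mk (nat_lit 10) (nat_lit 0x80000000800000008000000000000000000000000000000000000000000000000000) (nat_lit 0x14000000fc000000fe000001fe000007ff800003f7800007e7c00001f7800003fbc00001fc000000fc000000fc0000003000000000000) (.cons (nat_lit 815) (nat_lit 560) (nat_lit 512) (.cons (nat_lit 815) (nat_lit 561) (nat_lit 512) (.cons (nat_lit 815) (nat_lit 562) (nat_lit 512) (.cons (nat_lit 720) (nat_lit 563) (nat_lit 512) (.cons (nat_lit 687) (nat_lit 564) (nat_lit 512) (.cons (nat_lit 784) (nat_lit 565) (nat_lit 512) (.cons (nat_lit 720) (nat_lit 566) (nat_lit 512) .nil))))))))))))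
(.node (nat_lit 4)
(.node (nat_lit 2)
(.node (nat_lit 1)
(.leaf (.mk (nat_lit 10) (nat_lit 0x80000000c000000000000000000000000000000000000000000000000000) (nat_lit 0x140000001c000000ff800000ff800001fb800000e7f00000f3e00001fff000007fe00000ffc000007f8000003f00000007000) (.cons (nat_lit 783) (nat_lit 25) (nat_lit 512) (.cons (nat_lit 783) (nat_lit 26) (nat_lit 512) (.cons (nat_lit 720) (nat_lit 27) (nat_lit 512) (.cons (nat_lit 783) (nat_lit 28) (nat_lit 512) (.cons (nat_lit 783) (nat_lit 29) (nat_lit 512) (.cons (nat_lit 783) (nat_lit 30) (nat_lit 512) (.cons (nat_lit 717) (nat_lit 31) (nat_lit 512) (.cons (nat_lit 717) (nat_lit 32) (nat_lit 512) .nil))))))))))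
(.leaf (.mk (nat_lit 6) (nat_lit 0x8000000080000000c000000000000000000000000000000000000000000000000000) (nat_lit 0x1000000018000000180000001000000006000000730000007c0000001c0000001c0000001c0000000000000000000) (.cons (nat_lit 815) (nat_lit 328) (nat_lit 512) (.cons (nat_lit 816) (nat_lit 550) (nat_lit 512) (.cons (nat_lit 687) (nat_lit 551) (nat_lit 512) (.cons (nat_lit 686) (nat_lit 50) (nat_lit 546) .nil)))))))
(.node (nat_lit 1)
(.leaf (.mk (nat_lit 9) (nat_lit 0x8000000080000000c000000000000000000000000000000000000000000000000000) (nat_lit 0x14000000ff800000ff000001f380000007e0000073e0000007e000000700000007000000070000000000000000000) (.cons (nat_lit 686) (nat_lit 50) (nat_lit 546) (.cons (nat_lit 815) (nat_lit 427) (nat_lit 512) (.cons (nat_lit 717) (nat_lit 428) (nat_lit 512) (.cons (nat_lit 815) (nat_lit 148) (nat_lit 512) .nil))))))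
(.leaf (.mk (nat_lit 9) (nat_lit 0x80000001c000000000000000000000000000000000000000000000000000) (nat_lit 0xe780000063000000ff8000003f0000003f000000070000000700000005000) (.cons (nat_lit 721) (nat_lit 387) (nat_lit 512) (.cons (nat_lit 717) (nat_lit 388) (nat_lit 512) (.cons (nat_lit 721) (nat_lit 389) (nat_lit 512) (.cons (nat_lit 721) (nat_lit 390) (nat_lit 512) (.cons (nat_lit 721) (nat_lit 391) (nat_lit 512) .nil)))))))))
(.node (nat_lit 2)
(.node (nat_lit 1)
(.leaf (.mk (nat_lit 8) (nat_lit 0x8000000080000000c000000000000000000000000000000000000000000000000000) (nat_lit 0x140000001c0000001f0000003000000004000000038000001f8000001f8000001e0000000e0000000400000000000) (.cons (nat_lit 686) (nat_lit 62) (nat_lit 546) (.cons (nat_lit 815) (nat_lit 327) (nat_lit 512) (.cons (nat_lit 815) (nat_lit 373) (nat_lit 512) (.cons (nat_lit 687) (nat_lit 374) (nat_lit 512) .nil))))))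
(.leaf (.mk (nat_lit 7) (nat_lit 0x8000000080000000c000000000000000000000000000000000000000000000000000) (nat_lit 0x140000001c0000001e0000001200000007c00000738000007fc000001100000010000000000000000000000000000) (.cons (nat_lit 815) (nat_lit 327) (nat_lit 512) (.cons (nat_lit 815) (nat_lit 328) (nat_lit 512) (.cons (nat_lit 717) (nat_lit 329) (nat_lit 512) (.cons (nat_lit 688) (nat_lit 330) (nat_lit 512) .nil)))))))
(.node (nat_lit 1)
(.leaf (.mk (nat_lit 8) (nat_lit 0x8000000080000000c000000000000000000000000000000000000000000000000000) (nat_lit 0x140000001c0000003c0000007000000066000000700000007e0000001e0000001c0000001c0000001400000000000) (.cons (nat_lit 686) (nat_lit 62) (nat_lit 546) (.cons (nat_lit 688) (nat_lit 301) (nat_lit 512) (.cons (nat_lit 687) (nat_lit 302) (nat_lit 512) (.cons (nat_lit 686) (nat_lit 50) (nat_lit 546) .nil))))))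
(.leaf (.mk (nat_lit 9) (nat_lit 0x80000000e000000000000000000000000000000000000000000000000000) (nat_lit 0x40000001d0000001f8000001b800000e7c00000718000007bc000007f8000003fc000007f8000000700000007000) (.cons (nat_lit 716) (nat_lit 179) (nat_lit 512) (.cons (nat_lit 716) (nat_lit 180) (nat_lit 512) (.cons (nat_lit 688) (nat_lit 33) (nat_lit 512) (.cons (nat_lit 688) (nat_lit 181) (nat_lit 512) (.cons (nat_lit 685) (nat_lit 182) (nat_lit 512) (.cons (nat_lit 716) (nat_lit 183) (nat_lit 512) .nil)))))))))))))
(.node (nat_lit 16)
(.node (nat_lit 8)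
(.node (nat_lit 4)
(.node (nat_lit 2)
(.node (nat_lit 1)
(.leaf (.mk (nat_lit 8) (nat_lit 0x80000000e000000000000000000000000000000000000000000000000000) (nat_lit 0x140000001d0000001f0000000b00000003c00000118000007fc000003fc000001f8000001f8000000400000000000) (.cons (nat_lit 688) (nat_lit 33) (nat_lit 512) (.cons (nat_lit 783) (nat_lit 34) (nat_lit 512) (.cons (nat_lit 684) (nat_lit 35) (nat_lit 512) (.cons (nat_lit 685) (nat_lit 36) (nat_lit 512) (.cons (nat_lit 716) (nat_lit 37) (nat_lit 512) (.cons (nat_lit 684) (nat_lit 38) (nat_lit 512) (.cons (nat_lit 684) (nat_lit 39) (nat_lit 512) .nil)))))))))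
(.leaf (.mk (nat_lit 6) (nat_lit 0x80000000e000000100000000000000000000000000000000000000000000) (nat_lit 0x800000003800000110000006b8000001e00000014000000000000000000000000000) (.cons (nat_lit 720) (nat_lit 163) (nat_lit 512) (.cons (nat_lit 687) (nat_lit 164) (nat_lit 512) (.cons (nat_lit 689) (nat_lit 165) (nat_lit 512) (.cons (nat_lit 687) (nat_lit 166) (nat_lit 512) .nil)))))))
(.node (nat_lit 1)
(.leaf (.mk (nat_lit 6) (nat_lit 0x8000000080000000e000000000000000000000000000000000000000000000000000) (nat_lit 0x140000001c0000001c0000000000000000000000110000003c0000001c0000001c0000001c0000000400000000000) (.cons (nat_lit 688) (nat_lit 146) (nat_lit 512) (.cons (nat_lit 687) (nat_lit 147) (nat_lit 512) (.cons (nat_lit 815) (nat_lit 148) (nat_lit 512) .nil)))))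
(.leaf (.mk (nat_lit 6) (nat_lit 0x80000000e000000010000000000000000000000000000000000000000000) (nat_lit 0x3800000118000003e8000000780000007800000078000000000000000000) (.cons (nat_lit 683) (nat_lit 119) (nat_lit 512) (.cons (nat_lit 716) (nat_lit 120) (nat_lit 512) (.cons (nat_lit 685) (nat_lit 121) (nat_lit 512) (.cons (nat_lit 716) (nat_lit 122) (nat_lit 512) (.cons (nat_lit 720) (nat_lit 123) (nat_lit 512) .nil)))))))))
(.node (nat_lit 2)
(.node (nat_lit 1)
(.leaf (.mk (nat_lit 7) (nat_lit 0x80000000e000000020000000000000000000000000000000000000000000) (nat_lit 0x10000000b0000000b00000003000000100000003dc000003fc0000017000000070000000400000000000) (.cons (nat_lit 684) (nat_lit 43) (nat_lit 512) (.cons (nat_lit 749) (nat_lit 82) (nat_lit 512) (.cons (nat_lit 686) (nat_lit 83) (nat_lit 512) (.cons (nat_lit 720) (nat_lit 84) (nat_lit 512) .nil))))))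
(.leaf (.mk (nat_lit 6) (nat_lit 0x80000000f000000000000000000000000000000000000000000000000000) (nat_lit 0x30000000b00000003800000008000001f8000000780000007800000028000000000000000000) (.cons (nat_lit 687) (nat_lit 73) (nat_lit 512) (.cons (nat_lit 684) (nat_lit 74) (nat_lit 512) .nil)))))
(.node (nat_lit 1)
(.leaf (.mk (nat_lit 6) (nat_lit 0x80000000e000000010000000000000000000000000000000000000000000) (nat_lit 0x80000000b00000003c00000110000000ec000000700000007000000050000000000000000000) (.cons (nat_lit 683) (nat_lit 40) (nat_lit 512) (.cons (nat_lit 716) (nat_lit 41) (nat_lit 512) (.cons (nat_lit 685) (nat_lit 60) (nat_lit 512) (.cons (nat_lit 685) (nat_lit 43) (nat_lit 512) .nil))))))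
(.leaf (.mk (nat_lit 6) (nat_lit 0x80000000e000000010000000000000000000000000000000000000000000) (nat_lit 0x140000001d0000001f0000000b00000003c000001100000036c000000100000001000000010000000000000000000) (.cons (nat_lit 683) (nat_lit 40) (nat_lit 512) (.cons (nat_lit 716) (nat_lit 41) (nat_lit 512) (.cons (nat_lit 749) (nat_lit 42) (nat_lit 512) (.cons (nat_lit 685) (nat_lit 43) (nat_lit 512) .nil)))))))))
(.node (nat_lit 4)
(.node (nat_lit 2)
(.node (nat_lit 1)
(.leaf (.mk (nat_lit 2) (nat_lit 0xe000000018000000000000000000000000000000000000000000) (nat_lit 0x1000000064000000000000000000000000000000000000000000) (.cons (nat_lit 716) (nat_lit 1) (nat_lit 477) (.cons (nat_lit 685) (nat_lit 44) (nat_lit 512) .nil))))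
(.leaf (.mk (nat_lit 4) (nat_lit 0xf000000010000000000000000000000000000000000000000000) (nat_lit 0x20000000380000010000000008000000100000001000000000000000000000000000) (.cons (nat_lit 683) (nat_lit 1) (nat_lit 477) (.cons (nat_lit 748) (nat_lit 57) (nat_lit 512) .nil)))))
(.node (nat_lit 1)
(.leaf (.mk (nat_lit 5) (nat_lit 0x20000000e000000010000000000000000000000000000000000000000000) (nat_lit 0x1000000030000000300000001c0000011000000060000000100000001000000010000000000000000000) (.cons (nat_lit 720) (nat_lit 45) (nat_lit 512) (.cons (nat_lit 781) (nat_lit 46) (nat_lit 512) (.cons (nat_lit 685) (nat_lit 47) (nat_lit 512) (.cons (nat_lit 748) (nat_lit 48) (nat_lit 512) .nil))))))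
(.leaf (.mk (nat_lit 2) (nat_lit 0xe000000030000000000000000000000000000000000000000000) (nat_lit 0x1000000004c000000000000000000000000000000000000000000) (.cons (nat_lit 720) (nat_lit 1) (nat_lit 478) (.cons (nat_lit 683) (nat_lit 44) (nat_lit 512) .nil))))))
(.node (nat_lit 2)
(.node (nat_lit 1)
(.leaf (.mk (nat_lit 1) (nat_lit 0xe000000038000000000000000000000000000000000000000000) (nat_lit 0x44000000000000000000000000000000000000000000) (.cons (nat_lit 682) (nat_lit 0) (nat_lit 476) (.cons (nat_lit 686) (nat_lit 0) (nat_lit 477) .nil))))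
(.leaf (.mk (nat_lit 1) (nat_lit 0x20000001e000000010000000000000000000000000000000000000000000) (nat_lit 0x100000000000000020000000000000000000000000000000000000000000) (.cons (nat_lit 685) (nat_lit 1) (nat_lit 478) (.cons (nat_lit 748) (nat_lit 4) (nat_lit 510) .nil)))))
(.node (nat_lit 1)
(.leaf (.mk (nat_lit 4) (nat_lit 0x20000000200000006000000010000000000000000000000000000000000000000000) (nat_lit 0x100000003000000010000000100000001000000060000000100000001000000000000000000000000000) (.cons (nat_lit 813) (nat_lit 52) (nat_lit 512) (.cons (nat_lit 652) (nat_lit 53) (nat_lit 512) (.cons (nat_lit 685) (nat_lit 54) (nat_lit 512) .nil)))))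
(.leaf (.mk (nat_lit 3) (nat_lit 0x20000000e000000030000000000000000000000000000000000000000000) (nat_lit 0x20000000000000011000000000000000100000001000000010000000000000000000) (.cons (nat_lit 720) (nat_lit 1) (nat_lit 478) (.cons (nat_lit 652) (nat_lit 50) (nat_lit 512) .nil))))))))
(.node (nat_lit 8)
(.node (nat_lit 4)
(.node (nat_lit 2)
(.node (nat_lit 1)
(.leaf (.mk (nat_lit 2) (nat_lit 0x30000000e000000000000000000000000000000000000000000000000000) (nat_lit 0xc0000011000000000000000000000000000000000000000000000000000) (.cons (nat_lit 720) (nat_lit 4) (nat_lit 510) (.cons (nat_lit 747) (nat_lit 49) (nat_lit 512) .nil))))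
(.leaf (.mk (nat_lit 1) (nat_lit 0x38000000e000000000000000000000000000000000000000000000000000) (nat_lit 0x40000001000000000000000000000000000000000000000000000000000) (.cons (nat_lit 716) (nat_lit 4) (nat_lit 509) (.cons (nat_lit 746) (nat_lit 7) (nat_lit 508) .nil)))))
(.node (nat_lit 1)
(.leaf (.mk (nat_lit 2) (nat_lit 0x200000002000000030000000100000000000000000000000000000000000) (nat_lit 0x20000000000000001000000000000000000000001000000010000000000000000000) (.cons (nat_lit 781) (nat_lit 2) (nat_lit 446) (.cons (nat_lit 620) (nat_lit 51) (nat_lit 512) .nil))))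
(.leaf (.mk (nat_lit 1) (nat_lit 0x200000002000000030000000100000001000000000000000000000000000) (nat_lit 0x1000000000000000000000000000000010000000000000000000) (.cons (nat_lit 588) (nat_lit 3) (nat_lit 382) (.cons (nat_lit 716) (nat_lit 3) (nat_lit 414) .nil))))))
(.node (nat_lit 2)
(.node (nat_lit 1)
(.leaf (.mk (nat_lit 1) (nat_lit 0x2000000020000000200000006000000010000000000000000000000000000000000000000000) (nat_lit 0x1000000040000000000000000000000000000000000000000000) (.cons (nat_lit 716) (nat_lit 2) (nat_lit 478) (.cons (nat_lit 686) (nat_lit 5) (nat_lit 479) .nil))))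
(.leaf (.mk (nat_lit 2) (nat_lit 0x20000000200000002000000010000000100000000000000000000000000000000000) (nat_lit 0x100000001000000020000000000000001000000000000000000000000000) (.cons (nat_lit 685) (nat_lit 2) (nat_lit 446) (.cons (nat_lit 716) (nat_lit 51) (nat_lit 544) .nil)))))
(.node (nat_lit 1)
(.leaf (.mk (nat_lit 3) (nat_lit 0x20000000200000006000000030000000000000000000000000000000000000000000) (nat_lit 0x100000003000000010000000000000000000000040000000100000000000000000000000000000000000) (.cons (nat_lit 652) (nat_lit 2) (nat_lit 446) (.cons (nat_lit 812) (nat_lit 55) (nat_lit 512) .nil))))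
(.leaf (.mk (nat_lit 2) (nat_lit 0x1000000020000000200000006000000020000000000000000000000000000000000000000000) (nat_lit 0x100000002000000010000000000000000000000040000000000000000000000000000000000000000000) (.cons (nat_lit 780) (nat_lit 6) (nat_lit 478) (.cons (nat_lit 813) (nat_lit 56) (nat_lit 512) .nil)))))))
(.node (nat_lit 4)
(.node (nat_lit 2)
(.node (nat_lit 1)
(.leaf (.mk (nat_lit 1) (nat_lit 0x3000000020000000200000006000000000000000000000000000000000000000000000000000) (nat_lit 0x100000000000000000000000000000000000000040000000000000000000000000000000000000000000) (.cons (nat_lit 686) (nat_lit 5) (nat_lit 479) (.cons (nat_lit 844) (nat_lit 6) (nat_lit 510) .nil))))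
(.leaf (.mk (nat_lit 3) (nat_lit 0x10000000f000000010000000000000000000000000000000000000000000) (nat_lit 0x20000000280000010000000000000000100000001000000000000000000000000000) (.cons (nat_lit 747) (nat_lit 4) (nat_lit 509) (.cons (nat_lit 749) (nat_lit 58) (nat_lit 512) .nil)))))
(.node (nat_lit 1)
(.leaf (.mk (nat_lit 2) (nat_lit 0x30000000f000000010000000000000000000000000000000000000000000) (nat_lit 0x20000000000000010000000000000000100000001000000000000000000000000000) (.cons (nat_lit 720) (nat_lit 4) (nat_lit 510) (.cons (nat_lit 652) (nat_lit 59) (nat_lit 512) .nil))))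
(.leaf (.mk (nat_lit 1) (nat_lit 0x300000003000000010000000100000000000000000000000000000000000) (nat_lit 0x20000000000000000000000000000000000000001000000000000000000000000000) (.cons (nat_lit 620) (nat_lit 3) (nat_lit 414) (.cons (nat_lit 781) (nat_lit 3) (nat_lit 446) .nil))))))
(.node (nat_lit 2)
(.node (nat_lit 1)
(.leaf (.mk (nat_lit 5) (nat_lit 0x80000000e000000030000000000000000000000000000000000000000000) (nat_lit 0x80000000b00000003c00000110000000c0000000700000007000000050000000000000000000) (.cons (nat_lit 720) (nat_lit 1) (nat_lit 478) (.cons (nat_lit 749) (nat_lit 61) (nat_lit 512) .nil))))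
(.leaf (.mk (nat_lit 4) (nat_lit 0xa0000000e000000030000000000000000000000000000000000000000000) (nat_lit 0x80000000b00000001c00000010000000c0000000700000007000000050000000000000000000) (.cons (nat_lit 652) (nat_lit 62) (nat_lit 512) (.cons (nat_lit 654) (nat_lit 63) (nat_lit 512) (.cons (nat_lit 653) (nat_lit 64) (nat_lit 512) (.cons (nat_lit 652) (nat_lit 50) (nat_lit 512) .nil)))))))
(.node (nat_lit 1)
(.leaf (.mk (nat_lit 2) (nat_lit 0x200000002000000030000000100000000000000000000000000000000000) (nat_lit 0x20000000000000000000000000000000200000001000000010000000000000000000) (.cons (nat_lit 781) (nat_lit 2) (nat_lit 446) (.cons (nat_lit 620) (nat_lit 72) (nat_lit 512) .nil))))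
(.leaf (.mk (nat_lit 3) (nat_lit 0xa0000000e000000020000000400000000000000000000000000000000000) (nat_lit 0x80000000b00000001c00000010000000c0000000200000004000000000000000000000000000) (.cons (nat_lit 686) (nat_lit 69) (nat_lit 512) (.cons (nat_lit 748) (nat_lit 70) (nat_lit 512) .nil))))))))))
(.node (nat_lit 32)
(.node (nat_lit 16)
(.node (nat_lit 8)
(.node (nat_lit 4)
(.node (nat_lit 2)
(.node (nat_lit 1)
(.leaf (.mk (nat_lit 3) (nat_lit 0x20000000e000000020000000200000000000000000000000000000000000) (nat_lit 0x100000001c0000001000000000000000500000007000000050000000000000000000) (.cons (nat_lit 621) (nat_lit 65) (nat_lit 512) (.cons (nat_lit 748) (nat_lit 66) (nat_lit 512) .nil))))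
(.leaf (.mk (nat_lit 2) (nat_lit 0x200000002000000020000000200000002000000000000000000000000000) (nat_lit 0x500000005000000050000000000000000000) (.cons (nat_lit 620) (nat_lit 67) (nat_lit 512) (.cons (nat_lit 622) (nat_lit 68) (nat_lit 512) .nil)))))
(.node (nat_lit 1)
(.leaf (.mk (nat_lit 2) (nat_lit 0x30000000e000000020000000200000000000000000000000000000000000) (nat_lit 0x100000000c0000001000000000000000000000000000000000000000000000000000) (.cons (nat_lit 780) (nat_lit 6) (nat_lit 446) (.cons (nat_lit 747) (nat_lit 49) (nat_lit 512) .nil))))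
(.leaf (.mk (nat_lit 1) (nat_lit 0x200000002000000020000000200000003000000000000000000000000000) (nat_lit 0x100000000000000010000000000000000000) (.cons (nat_lit 588) (nat_lit 2) (nat_lit 382) (.cons (nat_lit 652) (nat_lit 2) (nat_lit 414) .nil))))))
(.node (nat_lit 2)
(.node (nat_lit 1)
(.leaf (.mk (nat_lit 1) (nat_lit 0x200000002000000020000000200000006000000000000000000000000000) (nat_lit 0x400000000000000040000000000000000000) (.cons (nat_lit 590) (nat_lit 5) (nat_lit 383) (.cons (nat_lit 654) (nat_lit 5) (nat_lit 415) .nil))))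
(.leaf (.mk (nat_lit 2) (nat_lit 0xa0000000e000000060000000400000000000000000000000000000000000) (nat_lit 0x80000000a0000000000000000000000080000000000000000000000000000000000000000000) (.cons (nat_lit 781) (nat_lit 5) (nat_lit 447) (.cons (nat_lit 783) (nat_lit 71) (nat_lit 512) .nil)))))
(.node (nat_lit 1)
(.leaf (.mk (nat_lit 2) (nat_lit 0x30000000e000000020000000400000000000000000000000000000000000) (nat_lit 0x100000000c0000001000000000000000200000004000000000000000000000000000) (.cons (nat_lit 653) (nat_lit 56) (nat_lit 448) (.cons (nat_lit 747) (nat_lit 49) (nat_lit 512) .nil))))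
(.leaf (.mk (nat_lit 1) (nat_lit 0x8000000080000000c000000040000000400000000000000000000000000000000000) (nat_lit 0x8000000000000000000000000000000080000000000000000000000000000000000000000000) (.cons (nat_lit 687) (nat_lit 2) (nat_lit 448) (.cons (nat_lit 815) (nat_lit 2) (nat_lit 480) .nil)))))))
(.node (nat_lit 4)
(.node (nat_lit 2)
(.node (nat_lit 1)
(.leaf (.mk (nat_lit 1) (nat_lit 0x200000002000000030000000100000001000000000000000000000000000) (nat_lit 0x200000000000000010000000000000000000) (.cons (nat_lit 588) (nat_lit 3) (nat_lit 382) (.cons (nat_lit 653) (nat_lit 2) (nat_lit 414) .nil))))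
(.leaf (.mk (nat_lit 3) (nat_lit 0x80000000f000000080000000000000000000000000000000000000000000) (nat_lit 0x80000000000000000800000140000000400000004000000000000000000000000000) (.cons (nat_lit 688) (nat_lit 7) (nat_lit 478) (.cons (nat_lit 686) (nat_lit 80) (nat_lit 512) .nil)))))
(.node (nat_lit 1)
(.leaf (.mk (nat_lit 5) (nat_lit 0xf000000010000000000000000000000000000000000000000000) (nat_lit 0x3000000030000000380000000000000028000000380000003800000028000000000000000000) (.cons (nat_lit 683) (nat_lit 1) (nat_lit 477) (.cons (nat_lit 748) (nat_lit 75) (nat_lit 512) .nil))))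
(.leaf (.mk (nat_lit 4) (nat_lit 0x10000000f000000010000000000000000000000000000000000000000000) (nat_lit 0x3000000030000000280000000000000020000000380000003800000028000000000000000000) (.cons (nat_lit 747) (nat_lit 4) (nat_lit 509) (.cons (nat_lit 652) (nat_lit 76) (nat_lit 512) .nil))))))
(.node (nat_lit 2)
(.node (nat_lit 1)
(.leaf (.mk (nat_lit 3) (nat_lit 0x100000003000000010000000100000000000000000000000000000000000) (nat_lit 0x3000000030000000200000000000000020000000280000003800000028000000000000000000) (.cons (nat_lit 749) (nat_lit 59) (nat_lit 512) (.cons (nat_lit 620) (nat_lit 65) (nat_lit 511) (.cons (nat_lit 780) (nat_lit 77) (nat_lit 512) .nil)))))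
(.leaf (.mk (nat_lit 2) (nat_lit 0x10000000100000003000000010000000100000000000000000000000000000000000) (nat_lit 0x3000000020000000200000000000000020000000200000000000000000000000000000000000) (.cons (nat_lit 781) (nat_lit 78) (nat_lit 512) (.cons (nat_lit 685) (nat_lit 79) (nat_lit 512) .nil)))))
(.node (nat_lit 1)
(.leaf (.mk (nat_lit 1) (nat_lit 0x30000000100000001000000010000000100000000000000000000000000000000000) (nat_lit 0x2000000000000000200000000000000000000000000000000000000000000000000000000000) (.cons (nat_lit 749) (nat_lit 3) (nat_lit 446) (.cons (nat_lit 813) (nat_lit 3) (nat_lit 478) .nil))))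
(.leaf (.mk (nat_lit 1) (nat_lit 0x10000000100000003000000030000000000000000000000000000000000000000000) (nat_lit 0x1000000000000000000000000000000000000000200000000000000000000000000000000000) (.cons (nat_lit 653) (nat_lit 5) (nat_lit 446) (.cons (nat_lit 812) (nat_lit 5) (nat_lit 478) .nil))))))))
(.node (nat_lit 8)
(.node (nat_lit 4)
(.node (nat_lit 2)
(.node (nat_lit 1)
(.leaf (.mk (nat_lit 2) (nat_lit 0x80000000f0000000c0000000000000000000000000000000000000000000) (nat_lit 0x80000000000000000800000000000000400000004000000000000000000000000000) (.cons (nat_lit 715) (nat_lit 7) (nat_lit 477) (.cons (nat_lit 654) (nat_lit 81) (nat_lit 512) .nil))))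
(.leaf (.mk (nat_lit 1) (nat_lit 0x80000000c0000000c0000000400000000000000000000000000000000000) (nat_lit 0x80000000000000000000000000000000000000004000000000000000000000000000) (.cons (nat_lit 622) (nat_lit 3) (nat_lit 416) (.cons (nat_lit 783) (nat_lit 2) (nat_lit 448) .nil)))))
(.node (nat_lit 1)
(.leaf (.mk (nat_lit 6) (nat_lit 0xa0000000e000000020000000000000000000000000000000000000000000) (nat_lit 0xa0000000b00000001000000100000003c0000001700000017000000070000000400000000000) (.cons (nat_lit 720) (nat_lit 106) (nat_lit 512) (.cons (nat_lit 748) (nat_lit 107) (nat_lit 512) (.cons (nat_lit 653) (nat_lit 108) (nat_lit 512) .nil)))))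
(.leaf (.mk (nat_lit 6) (nat_lit 0x80000000e000000060000000000000000000000000000000000000000000) (nat_lit 0xb0000000b000000030000000000000019c000001fc0000007000000070000000000000000000) (.cons (nat_lit 654) (nat_lit 88) (nat_lit 512) (.cons (nat_lit 683) (nat_lit 89) (nat_lit 512) (.cons (nat_lit 684) (nat_lit 90) (nat_lit 512) .nil)))))))
(.node (nat_lit 2)
(.node (nat_lit 1)
(.leaf (.mk (nat_lit 4) (nat_lit 0x80000001e000000020000000000000000000000000000000000000000000) (nat_lit 0x8000000080000000000000000000000390000001000000010000000000000000000000000000) (.cons (nat_lit 684) (nat_lit 1) (nat_lit 478) (.cons (nat_lit 688) (nat_lit 85) (nat_lit 512) .nil))))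
(.leaf (.mk (nat_lit 3) (nat_lit 0x80000001e000000100000000000000000000000000000000000000000000) (nat_lit 0x8000000080000000000000000000000280000001000000010000000000000000000000000000) (.cons (nat_lit 689) (nat_lit 7) (nat_lit 479) (.cons (nat_lit 656) (nat_lit 86) (nat_lit 512) .nil)))))
(.node (nat_lit 1)
(.leaf (.mk (nat_lit 2) (nat_lit 0x800000018000000100000001000000000000000000000000000000000000) (nat_lit 0x8000000080000000000000000000000080000000000000010000000000000000000000000000) (.cons (nat_lit 624) (nat_lit 6) (nat_lit 417) (.cons (nat_lit 783) (nat_lit 87) (nat_lit 512) .nil))))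
(.leaf (.mk (nat_lit 1) (nat_lit 0x80000000800000018000000100000001000000000000000000000000000000000000) (nat_lit 0x8000000000000000000000000000000080000000000000000000000000000000000000000000) (.cons (nat_lit 687) (nat_lit 5) (nat_lit 449) (.cons (nat_lit 815) (nat_lit 5) (nat_lit 481) .nil)))))))
(.node (nat_lit 4)
(.node (nat_lit 2)
(.node (nat_lit 1)
(.leaf (.mk (nat_lit 2) (nat_lit 0x80000000c000000040000000400000000000000000000000000000000000) (nat_lit 0x8000000080000000000000000000000080000000000000004000000000000000000000000000) (.cons (nat_lit 622) (nat_lit 3) (nat_lit 416) (.cons (nat_lit 783) (nat_lit 71) (nat_lit 512) .nil))))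
(.leaf (.mk (nat_lit 5) (nat_lit 0x80000000e000000068000000000000000000000000000000000000000000) (nat_lit 0x30000000300000003000000000000000140000007c0000007000000070000000000000000000) (.cons (nat_lit 684) (nat_lit 0) (nat_lit 477) (.cons (nat_lit 653) (nat_lit 95) (nat_lit 512) .nil)))))
(.node (nat_lit 1)
(.leaf (.mk (nat_lit 5) (nat_lit 0x80000000e000000070000000000000000000000000000000000000000000) (nat_lit 0x80000000a0000000200000000000000188000001b80000001000000010000000000000000000) (.cons (nat_lit 683) (nat_lit 0) (nat_lit 477) (.cons (nat_lit 783) (nat_lit 91) (nat_lit 512) .nil))))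
(.leaf (.mk (nat_lit 4) (nat_lit 0x8000000080000000e000000070000000000000000000000000000000000000000000) (nat_lit 0x8000000020000000200000000000000180000001b80000001000000010000000000000000000) (.cons (nat_lit 815) (nat_lit 2) (nat_lit 480) (.cons (nat_lit 652) (nat_lit 92) (nat_lit 512) .nil))))))
(.node (nat_lit 2)
(.node (nat_lit 1)
(.leaf (.mk (nat_lit 3) (nat_lit 0x8000000080000000a000000070000000100000000000000000000000000000000000) (nat_lit 0x20000000200000000000000180000001a80000001000000010000000000000000000) (.cons (nat_lit 620) (nat_lit 88) (nat_lit 478) (.cons (nat_lit 687) (nat_lit 93) (nat_lit 512) .nil))))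
(.leaf (.mk (nat_lit 2) (nat_lit 0x800000008000000080000000f0000000100000000000000000000000000000000000) (nat_lit 0x100000001880000000000000000000000000000000000) (.cons (nat_lit 651) (nat_lit 1) (nat_lit 445) (.cons (nat_lit 656) (nat_lit 94) (nat_lit 512) .nil)))))
(.node (nat_lit 1)
(.leaf (.mk (nat_lit 1) (nat_lit 0x800000008000000080000000f0000001000000000000000000000000000000000000) (nat_lit 0x100000000800000000000000000000000000000000000) (.cons (nat_lit 655) (nat_lit 7) (nat_lit 446) (.cons (nat_lit 688) (nat_lit 5) (nat_lit 449) .nil))))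
(.leaf (.mk (nat_lit 4) (nat_lit 0x80000000e000000068000000200000000000000000000000000000000000) (nat_lit 0x30000000300000003000000000000000040000005c0000007000000070000000000000000000) (.cons (nat_lit 621) (nat_lit 96) (nat_lit 512) (.cons (nat_lit 749) (nat_lit 97) (nat_lit 512) (.cons (nat_lit 654) (nat_lit 98) (nat_lit 512) .nil))))))))))
(.node (nat_lit 16)
(.node (nat_lit 8)
(.node (nat_lit 4)
(.node (nat_lit 2)
(.node (nat_lit 1)
(.leaf (.mk (nat_lit 2) (nat_lit 0x80000000e000000060000000200000002000000000000000000000000000) (nat_lit 0x400000004000000060000000000000000000) (.cons (nat_lit 589) (nat_lit 3) (nat_lit 383) (.cons (nat_lit 622) (nat_lit 105) (nat_lit 512) .nil))))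
(.leaf (.mk (nat_lit 3) (nat_lit 0x200000006000000060000000200000000000000000000000000000000000) (nat_lit 0x3000000030000000100000000000000000000000100000003000000030000000000000000000) (.cons (nat_lit 621) (nat_lit 102) (nat_lit 512) (.cons (nat_lit 780) (nat_lit 103) (nat_lit 512) .nil)))))
(.node (nat_lit 1)
(.leaf (.mk (nat_lit 3) (nat_lit 0x80000000e000000068000000600000000000000000000000000000000000) (nat_lit 0x200000002000000000000000040000001c0000005000000000000000000000000000) (.cons (nat_lit 622) (nat_lit 3) (nat_lit 416) (.cons (nat_lit 652) (nat_lit 99) (nat_lit 512) .nil))))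
(.leaf (.mk (nat_lit 2) (nat_lit 0x2000000068000000700000000000000000000000000000000000) (nat_lit 0x200000002000000000000000040000000c0000001000000000000000000000000000) (.cons (nat_lit 651) (nat_lit 100) (nat_lit 512) (.cons (nat_lit 749) (nat_lit 101) (nat_lit 512) .nil))))))
(.node (nat_lit 2)
(.node (nat_lit 1)
(.leaf (.mk (nat_lit 1) (nat_lit 0x68000000780000000000000000000000000000000000) (nat_lit 0x4000000040000000000000000000000000000000000) (.cons (nat_lit 650) (nat_lit 0) (nat_lit 444) (.cons (nat_lit 682) (nat_lit 4) (nat_lit 444) .nil))))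
(.leaf (.mk (nat_lit 1) (nat_lit 0x200000002000000060000000700000000000000000000000000000000000) (nat_lit 0x20000000000000000000000000000000000000001000000000000000000000000000) (.cons (nat_lit 620) (nat_lit 2) (nat_lit 414) (.cons (nat_lit 781) (nat_lit 5) (nat_lit 447) .nil)))))
(.node (nat_lit 1)
(.leaf (.mk (nat_lit 2) (nat_lit 0x200000006000000060000000200000002000000000000000000000000000) (nat_lit 0x100000001000000030000000000000000000) (.cons (nat_lit 589) (nat_lit 3) (nat_lit 383) (.cons (nat_lit 620) (nat_lit 67) (nat_lit 512) .nil))))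
(.leaf (.mk (nat_lit 2) (nat_lit 0x10000000200000006000000060000000200000000000000000000000000000000000) (nat_lit 0x3000000020000000100000000000000000000000000000000000000000000000000000000000) (.cons (nat_lit 748) (nat_lit 6) (nat_lit 446) (.cons (nat_lit 781) (nat_lit 104) (nat_lit 512) .nil)))))))
(.node (nat_lit 4)
(.node (nat_lit 2)
(.node (nat_lit 1)
(.leaf (.mk (nat_lit 1) (nat_lit 0x30000000200000006000000060000000000000000000000000000000000000000000) (nat_lit 0x3000000000000000000000000000000000000000000000000000000000000000000000000000) (.cons (nat_lit 812) (nat_lit 6) (nat_lit 478) (.cons (nat_lit 813) (nat_lit 5) (nat_lit 479) .nil))))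
(.leaf (.mk (nat_lit 1) (nat_lit 0x80000000e000000060000000200000006000000000000000000000000000) (nat_lit 0x400000000000000040000000000000000000) (.cons (nat_lit 590) (nat_lit 5) (nat_lit 383) (.cons (nat_lit 654) (nat_lit 3) (nat_lit 416) .nil)))))
(.node (nat_lit 1)
(.leaf (.mk (nat_lit 4) (nat_lit 0xa0000001e000000000000000000000000000000000000000000000000000) (nat_lit 0x8000000080000000100000000000000380000001000000010000000000000000000000000000) (.cons (nat_lit 748) (nat_lit 4) (nat_lit 510) (.cons (nat_lit 688) (nat_lit 85) (nat_lit 512) .nil))))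
(.leaf (.mk (nat_lit 5) (nat_lit 0x30000000e000000020000000000000000000000000000000000000000000) (nat_lit 0x10000000000000010000000000000000700000007000000050000000000000000000) (.cons (nat_lit 720) (nat_lit 4) (nat_lit 510) (.cons (nat_lit 653) (nat_lit 118) (nat_lit 512) .nil))))))
(.node (nat_lit 2)
(.node (nat_lit 1)
(.leaf (.mk (nat_lit 5) (nat_lit 0xa0000000e000000020000000200000000000000000000000000000000000) (nat_lit 0xa0000000a00000000000000000000000c0000000500000007000000070000000400000000000) (.cons (nat_lit 620) (nat_lit 109) (nat_lit 512) (.cons (nat_lit 654) (nat_lit 110) (nat_lit 512) (.cons (nat_lit 620) (nat_lit 111) (nat_lit 512) (.cons (nat_lit 620) (nat_lit 112) (nat_lit 512) .nil))))))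
(.leaf (.mk (nat_lit 3) (nat_lit 0x200000002000000020000000200000001000000000000000000000000000) (nat_lit 0x500000006000000050000000000000000000) (.cons (nat_lit 652) (nat_lit 2) (nat_lit 414) (.cons (nat_lit 621) (nat_lit 117) (nat_lit 512) .nil)))))
(.node (nat_lit 1)
(.leaf (.mk (nat_lit 3) (nat_lit 0xa0000000e000000020000000600000000000000000000000000000000000) (nat_lit 0x80000000a00000000000000000000000c0000000000000004000000000000000000000000000) (.cons (nat_lit 622) (nat_lit 5) (nat_lit 415) (.cons (nat_lit 686) (nat_lit 69) (nat_lit 512) .nil))))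
(.leaf (.mk (nat_lit 4) (nat_lit 0x200000006000000020000000200000001000000000000000000000000000) (nat_lit 0x40000000100000006000000070000000400000000000) (.cons (nat_lit 652) (nat_lit 2) (nat_lit 414) (.cons (nat_lit 621) (nat_lit 115) (nat_lit 512) .nil))))))))
(.node (nat_lit 8)
(.node (nat_lit 4)
(.node (nat_lit 2)
(.node (nat_lit 1)
(.leaf (.mk (nat_lit 4) (nat_lit 0x200000006000000020000000200000001000000000000000000000000000) (nat_lit 0x2000000020000000000000000000000040000000500000002000000030000000000000000000) (.cons (nat_lit 652) (nat_lit 2) (nat_lit 414) (.cons (nat_lit 621) (nat_lit 113) (nat_lit 512) .nil))))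
(.leaf (.mk (nat_lit 3) (nat_lit 0x200000006000000020000000200000003000000000000000000000000000) (nat_lit 0x2000000020000000000000000000000040000000400000000000000030000000000000000000) (.cons (nat_lit 588) (nat_lit 2) (nat_lit 382) (.cons (nat_lit 686) (nat_lit 114) (nat_lit 512) .nil)))))
(.node (nat_lit 1)
(.leaf (.mk (nat_lit 2) (nat_lit 0x200000006000000060000000200000002000000000000000000000000000) (nat_lit 0x2000000020000000000000000000000000000000400000000000000020000000000000000000) (.cons (nat_lit 589) (nat_lit 3) (nat_lit 383) (.cons (nat_lit 781) (nat_lit 79) (nat_lit 513) .nil))))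
(.leaf (.mk (nat_lit 3) (nat_lit 0x6000000020000000200000003000000000000000000000000000) (nat_lit 0x40000000000000004000000070000000400000000000) (.cons (nat_lit 588) (nat_lit 2) (nat_lit 382) (.cons (nat_lit 589) (nat_lit 116) (nat_lit 512) .nil))))))
(.node (nat_lit 2)
(.node (nat_lit 1)
(.leaf (.mk (nat_lit 2) (nat_lit 0x6000000020000000200000002000000020000000000000000000) (nat_lit 0x40000000000000004000000040000000400000000000) (.cons (nat_lit 686) (nat_lit 3) (nat_lit 383) (.cons (nat_lit 590) (nat_lit 68) (nat_lit 480) .nil))))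
(.leaf (.mk (nat_lit 2) (nat_lit 0x200000002000000020000000200000003000000000000000000000000000) (nat_lit 0x400000004000000050000000000000000000) (.cons (nat_lit 588) (nat_lit 2) (nat_lit 382) (.cons (nat_lit 622) (nat_lit 68) (nat_lit 512) .nil)))))
(.node (nat_lit 1)
(.leaf (.mk (nat_lit 4) (nat_lit 0x300000002000000020000000200000000000000000000000000000000000) (nat_lit 0x10000000000000000000000000000000500000007000000050000000000000000000) (.cons (nat_lit 780) (nat_lit 6) (nat_lit 446) (.cons (nat_lit 620) (nat_lit 109) (nat_lit 512) .nil))))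
(.leaf (.mk (nat_lit 2) (nat_lit 0xe000000018000000000000000000000000000000000000000000) (nat_lit 0x11000000060000000000000000000000000000000000000000000) (.cons (nat_lit 716) (nat_lit 1) (nat_lit 477) (.cons (nat_lit 685) (nat_lit 145) (nat_lit 512) .nil)))))))
(.node (nat_lit 4)
(.node (nat_lit 2)
(.node (nat_lit 1)
(.leaf (.mk (nat_lit 4) (nat_lit 0xf000000010000000000000000000000000000000000000000000) (nat_lit 0x380000010000000388000000000000000000000000000000000000000000) (.cons (nat_lit 683) (nat_lit 1) (nat_lit 477) (.cons (nat_lit 688) (nat_lit 143) (nat_lit 512) .nil))))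
(.leaf (.mk (nat_lit 5) (nat_lit 0x80000000e000000030000000000000000000000000000000000000000000) (nat_lit 0x2000000100000001c8000000780000007000000070000000000000000000) (.cons (nat_lit 720) (nat_lit 1) (nat_lit 478) (.cons (nat_lit 686) (nat_lit 139) (nat_lit 512) .nil)))))
(.node (nat_lit 1)
(.leaf (.mk (nat_lit 5) (nat_lit 0xf000000010000000000000000000000000000000000000000000) (nat_lit 0x3800000008000001e8000000180000001800000018000000000000000000) (.cons (nat_lit 683) (nat_lit 1) (nat_lit 477) (.cons (nat_lit 687) (nat_lit 127) (nat_lit 512) .nil))))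
(.leaf (.mk (nat_lit 4) (nat_lit 0x1e000000010000000000000000000000000000000000000000000) (nat_lit 0x3800000010000003a0000000000000000000000000000000000000000000) (.cons (nat_lit 685) (nat_lit 1) (nat_lit 478) (.cons (nat_lit 688) (nat_lit 124) (nat_lit 512) .nil))))))
(.node (nat_lit 2)
(.node (nat_lit 1)
(.leaf (.mk (nat_lit 3) (nat_lit 0x1e000000100000000000000000000000000000000000000000000) (nat_lit 0x380000001000000280000000000000000000000000000000000000000000) (.cons (nat_lit 689) (nat_lit 7) (nat_lit 479) (.cons (nat_lit 716) (nat_lit 125) (nat_lit 512) .nil))))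
(.leaf (.mk (nat_lit 2) (nat_lit 0x1f000000100000000000000000000000000000000000000000000) (nat_lit 0x380000000000000080000000000000000000000000000000000000000000) (.cons (nat_lit 687) (nat_lit 7) (nat_lit 478) (.cons (nat_lit 748) (nat_lit 126) (nat_lit 512) .nil)))))
(.node (nat_lit 1)
(.leaf (.mk (nat_lit 1) (nat_lit 0x10000001f000000000000000000000000000000000000000000000000000) (nat_lit 0x280000000000000000000000000000000000000000000000000000000000) (.cons (nat_lit 747) (nat_lit 4) (nat_lit 509) (.cons (nat_lit 749) (nat_lit 4) (nat_lit 510) .nil))))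
(.leaf (.mk (nat_lit 4) (nat_lit 0xf000000090000000000000000000000000000000000000000000) (nat_lit 0x380000000800000160000000180000001800000018000000000000000000) (.cons (nat_lit 688) (nat_lit 7) (nat_lit 478) (.cons (nat_lit 652) (nat_lit 128) (nat_lit 512) .nil)))))))))))
(.node (nat_lit 64)
(.node (nat_lit 32)
(.node (nat_lit 16)
(.node (nat_lit 8)
(.node (nat_lit 4)
(.node (nat_lit 2)
(.node (nat_lit 1)
(.leaf (.mk (nat_lit 3) (nat_lit 0xf000000090000000100000000000000000000000000000000000) (nat_lit 0x380000000800000060000000080000001800000018000000000000000000) (.cons (nat_lit 620) (nat_lit 129) (nat_lit 512) (.cons (nat_lit 651) (nat_lit 130) (nat_lit 512) (.cons (nat_lit 619) (nat_lit 131) (nat_lit 512) (.cons (nat_lit 685) (nat_lit 132) (nat_lit 512) .nil))))))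
(.leaf (.mk (nat_lit 2) (nat_lit 0x7000000090000000100000001000000000000000000000000000) (nat_lit 0x280000000800000040000000000000000000000000000000000000000000) (.cons (nat_lit 749) (nat_lit 3) (nat_lit 414) (.cons (nat_lit 715) (nat_lit 138) (nat_lit 512) .nil)))))
(.node (nat_lit 1)
(.leaf (.mk (nat_lit 2) (nat_lit 0xf000000090000000180000000000000000000000000000000000) (nat_lit 0x180000000800000060000000000000000800000000000000000000000000) (.cons (nat_lit 686) (nat_lit 136) (nat_lit 512) (.cons (nat_lit 748) (nat_lit 137) (nat_lit 512) .nil))))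
(.leaf (.mk (nat_lit 2) (nat_lit 0xf000000010000000100000000800000000000000000000000000) (nat_lit 0x380000000000000000000000080000001000000008000000000000000000) (.cons (nat_lit 620) (nat_lit 134) (nat_lit 512) (.cons (nat_lit 748) (nat_lit 135) (nat_lit 512) .nil))))))
(.node (nat_lit 2)
(.node (nat_lit 1)
(.leaf (.mk (nat_lit 2) (nat_lit 0x70000000b0000000100000000000000000000000000000000000) (nat_lit 0x200000000800000040000000080000001000000010000000000000000000) (.cons (nat_lit 620) (nat_lit 59) (nat_lit 480) (.cons (nat_lit 686) (nat_lit 133) (nat_lit 512) .nil))))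
(.leaf (.mk (nat_lit 1) (nat_lit 0x10000000f0000000100000000000000000000000000000000000) (nat_lit 0x800000000000000080000000000000000000000000000000000) (.cons (nat_lit 651) (nat_lit 1) (nat_lit 445) (.cons (nat_lit 715) (nat_lit 4) (nat_lit 477) .nil)))))
(.node (nat_lit 1)
(.leaf (.mk (nat_lit 1) (nat_lit 0x3000000010000000100000001800000000000000000000000000) (nat_lit 0x200000000000000000000000000000000000000008000000000000000000) (.cons (nat_lit 587) (nat_lit 2) (nat_lit 381) (.cons (nat_lit 749) (nat_lit 3) (nat_lit 414) .nil))))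
(.leaf (.mk (nat_lit 1) (nat_lit 0x10000000f000000010000000100000000800000000000000000000000000) (nat_lit 0x80000000000000000000000080000000000000000000000000000000000) (.cons (nat_lit 651) (nat_lit 2) (nat_lit 413) (.cons (nat_lit 747) (nat_lit 4) (nat_lit 509) .nil)))))))
(.node (nat_lit 4)
(.node (nat_lit 2)
(.node (nat_lit 1)
(.leaf (.mk (nat_lit 1) (nat_lit 0x70000000d0000000180000000000000000000000000000000000) (nat_lit 0x800000020000000000000000000000000000000000000000000) (.cons (nat_lit 685) (nat_lit 1) (nat_lit 445) (.cons (nat_lit 715) (nat_lit 7) (nat_lit 477) .nil))))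
(.leaf (.mk (nat_lit 1) (nat_lit 0x10000000f000000010000000180000000000000000000000000000000000) (nat_lit 0x80000000000000000000000000000000800000000000000000000000000) (.cons (nat_lit 619) (nat_lit 2) (nat_lit 413) (.cons (nat_lit 747) (nat_lit 4) (nat_lit 509) .nil)))))
(.node (nat_lit 1)
(.leaf (.mk (nat_lit 1) (nat_lit 0x7800000090000000100000001000000000000000000000000000) (nat_lit 0x80000000000000040000000000000000000000000000000000000000000) (.cons (nat_lit 747) (nat_lit 6) (nat_lit 413) (.cons (nat_lit 686) (nat_lit 7) (nat_lit 477) .nil))))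
(.leaf (.mk (nat_lit 4) (nat_lit 0x80000000e000000070000000000000000000000000000000000000000000) (nat_lit 0x200000000000000188000000780000007000000070000000000000000000) (.cons (nat_lit 683) (nat_lit 0) (nat_lit 477) (.cons (nat_lit 653) (nat_lit 140) (nat_lit 512) .nil))))))
(.node (nat_lit 2)
(.node (nat_lit 1)
(.leaf (.mk (nat_lit 3) (nat_lit 0x80000000e000000070000000200000000000000000000000000000000000) (nat_lit 0x200000000000000180000000580000007000000070000000000000000000) (.cons (nat_lit 621) (nat_lit 96) (nat_lit 512) (.cons (nat_lit 652) (nat_lit 141) (nat_lit 512) .nil))))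
(.leaf (.mk (nat_lit 2) (nat_lit 0x2000000070000000300000000000000000000000000000000000) (nat_lit 0x200000000000000180000000080000001000000010000000000000000000) (.cons (nat_lit 620) (nat_lit 81) (nat_lit 478) (.cons (nat_lit 687) (nat_lit 142) (nat_lit 512) .nil)))))
(.node (nat_lit 1)
(.leaf (.mk (nat_lit 1) (nat_lit 0xf0000000300000000000000000000000000000000000) (nat_lit 0x100000000080000000000000000000000000000000000) (.cons (nat_lit 651) (nat_lit 1) (nat_lit 445) (.cons (nat_lit 688) (nat_lit 1) (nat_lit 446) .nil))))
(.leaf (.mk (nat_lit 3) (nat_lit 0xf000000100000000000000000000000000000000000000000000) (nat_lit 0x380000010000000280000000000000000000000000000000000000000000) (.cons (nat_lit 687) (nat_lit 7) (nat_lit 478) (.cons (nat_lit 720) (nat_lit 144) (nat_lit 512) .nil))))))))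
(.node (nat_lit 8)
(.node (nat_lit 4)
(.node (nat_lit 2)
(.node (nat_lit 1)
(.leaf (.mk (nat_lit 2) (nat_lit 0x1f000000100000000000000000000000000000000000000000000) (nat_lit 0x380000000000000200000000000000000000000000000000000000000000) (.cons (nat_lit 689) (nat_lit 7) (nat_lit 479) (.cons (nat_lit 748) (nat_lit 126) (nat_lit 512) .nil))))
(.leaf (.mk (nat_lit 1) (nat_lit 0xe000000038000000000000000000000000000000000000000000) (nat_lit 0x10000000040000000000000000000000000000000000000000000) (.cons (nat_lit 686) (nat_lit 0) (nat_lit 477) (.cons (nat_lit 720) (nat_lit 1) (nat_lit 478) .nil)))))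
(.node (nat_lit 1)
(.leaf (.mk (nat_lit 2) (nat_lit 0x8000000080000000e000000100000000000000000000000000000000000000000000) (nat_lit 0x8000000000000000000000011000000280000001000000000000000000000000000000000000) (.cons (nat_lit 687) (nat_lit 152) (nat_lit 512) (.cons (nat_lit 720) (nat_lit 162) (nat_lit 512) .nil))))
(.leaf (.mk (nat_lit 5) (nat_lit 0x8000000080000000e000000080000000000000000000000000000000000000000000) (nat_lit 0x1000000340000001c0000001c0000001c0000000400000000000) (.cons (nat_lit 688) (nat_lit 152) (nat_lit 512) (.cons (nat_lit 655) (nat_lit 153) (nat_lit 512) (.cons (nat_lit 686) (nat_lit 154) (nat_lit 512) .nil)))))))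
(.node (nat_lit 2)
(.node (nat_lit 1)
(.leaf (.mk (nat_lit 4) (nat_lit 0x800000008000000080000000c000000000000000000000000000000000000000000000000000) (nat_lit 0x140000001c00000014000000000000000000000000000000040000000000000000000000000000000000000000000) (.cons (nat_lit 686) (nat_lit 2) (nat_lit 480) (.cons (nat_lit 846) (nat_lit 149) (nat_lit 512) .nil))))
(.leaf (.mk (nat_lit 3) (nat_lit 0x400000008000000080000000800000008000000000000000000000000000000000000000000000000000) (nat_lit 0x140000001800000014000000000000000000000000000000000000000000000000000000000000000000000000000) (.cons (nat_lit 814) (nat_lit 6) (nat_lit 512) (.cons (nat_lit 848) (nat_lit 150) (nat_lit 512) .nil)))))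
(.node (nat_lit 1)
(.leaf (.mk (nat_lit 2) (nat_lit 0x1400000008000000080000000800000008000000000000000000000000000000000000000000000000000) (nat_lit 0x140000000800000010000000000000000000000000000000000000000000000000000000000000000000000000000) (.cons (nat_lit 816) (nat_lit 3) (nat_lit 513) (.cons (nat_lit 847) (nat_lit 151) (nat_lit 512) .nil))))
(.leaf (.mk (nat_lit 1) (nat_lit 0x1c00000008000000080000000800000000000000000000000000000000000000000000000000000000000) (nat_lit 0x140000000000000000000000000000000000000000000000000000000000000000000000000000000000000000000) (.cons (nat_lit 878) (nat_lit 6) (nat_lit 544) (.cons (nat_lit 880) (nat_lit 3) (nat_lit 545) .nil)))))))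
(.node (nat_lit 4)
(.node (nat_lit 2)
(.node (nat_lit 1)
(.leaf (.mk (nat_lit 1) (nat_lit 0x8000000080000000e000000180000000000000000000000000000000000000000000) (nat_lit 0x1000000000000001000000000000000000000000000000000000) (.cons (nat_lit 656) (nat_lit 5) (nat_lit 449) (.cons (nat_lit 716) (nat_lit 7) (nat_lit 478) .nil))))
(.leaf (.mk (nat_lit 4) (nat_lit 0x8000000080000000c000000080000000800000000000000000000000000000000000) (nat_lit 0x4000000140000001c0000001c0000000400000000000) (.cons (nat_lit 654) (nat_lit 67) (nat_lit 546) (.cons (nat_lit 623) (nat_lit 156) (nat_lit 512) (.cons (nat_lit 624) (nat_lit 157) (nat_lit 512) (.cons (nat_lit 622) (nat_lit 109) (nat_lit 514) .nil)))))))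
(.node (nat_lit 1)
(.leaf (.mk (nat_lit 2) (nat_lit 0x8000000080000000e0000000c0000000000000000000000000000000000000000000) (nat_lit 0x1000000300000000400000000000000000000000000000000000) (.cons (nat_lit 654) (nat_lit 2) (nat_lit 448) (.cons (nat_lit 688) (nat_lit 155) (nat_lit 512) .nil))))
(.leaf (.mk (nat_lit 1) (nat_lit 0xe0000001c0000000000000000000000000000000000000000000) (nat_lit 0x1000000200000000000000000000000000000000000000000000) (.cons (nat_lit 689) (nat_lit 4) (nat_lit 479) (.cons (nat_lit 716) (nat_lit 7) (nat_lit 478) .nil))))))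
(.node (nat_lit 2)
(.node (nat_lit 1)
(.leaf (.mk (nat_lit 3) (nat_lit 0x80000000c000000080000000800000008000000000000000000000000000) (nat_lit 0x400000010000000140000001c0000000400000000000) (.cons (nat_lit 624) (nat_lit 68) (nat_lit 514) (.cons (nat_lit 590) (nat_lit 160) (nat_lit 512) .nil))))
(.leaf (.mk (nat_lit 3) (nat_lit 0x8000000080000000c000000080000000800000010000000000000000000000000000) (nat_lit 0x40000001400000008000000180000000000000000000) (.cons (nat_lit 656) (nat_lit 5) (nat_lit 417) (.cons (nat_lit 623) (nat_lit 158) (nat_lit 512) .nil)))))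
(.node (nat_lit 1)
(.leaf (.mk (nat_lit 2) (nat_lit 0x8000000080000000c000000080000000800000018000000000000000000000000000) (nat_lit 0x40000000400000000000000180000000000000000000) (.cons (nat_lit 592) (nat_lit 5) (nat_lit 385) (.cons (nat_lit 686) (nat_lit 159) (nat_lit 512) .nil))))
(.leaf (.mk (nat_lit 1) (nat_lit 0x8000000080000000c0000000c0000000800000008000000000000000000000000000) (nat_lit 0x400000000000000080000000000000000000) (.cons (nat_lit 591) (nat_lit 6) (nat_lit 384) (.cons (nat_lit 654) (nat_lit 2) (nat_lit 448) .nil)))))))))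
(.node (nat_lit 16)
(.node (nat_lit 8)
(.node (nat_lit 4)
(.node (nat_lit 2)
(.node (nat_lit 1)
(.leaf (.mk (nat_lit 2) (nat_lit 0xc000000080000000800000008000000040000000000000000000) (nat_lit 0x40000000000000004000000080000000400000000000) (.cons (nat_lit 622) (nat_lit 2) (nat_lit 384) (.cons (nat_lit 591) (nat_lit 161) (nat_lit 512) .nil))))
(.leaf (.mk (nat_lit 1) (nat_lit 0x40000000800000008000000080000000c0000000000000000000) (nat_lit 0x40000000000000000000000000000000400000000000) (.cons (nat_lit 558) (nat_lit 2) (nat_lit 352) (.cons (nat_lit 686) (nat_lit 6) (nat_lit 384) .nil)))))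
(.node (nat_lit 1)
(.leaf (.mk (nat_lit 1) (nat_lit 0x8000000080000001e000000100000000000000000000000000000000000000000000) (nat_lit 0x8000000000000000000000000000000200000000000000000000000000000000000000000000) (.cons (nat_lit 689) (nat_lit 7) (nat_lit 479) (.cons (nat_lit 815) (nat_lit 5) (nat_lit 481) .nil))))
(.leaf (.mk (nat_lit 4) (nat_lit 0x1e000000100000000000000000000000000000000000000000000) (nat_lit 0x380000001000000238000000000000000000000000000000000000000000) (.cons (nat_lit 689) (nat_lit 7) (nat_lit 479) (.cons (nat_lit 684) (nat_lit 177) (nat_lit 512) .nil))))))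
(.node (nat_lit 2)
(.node (nat_lit 1)
(.leaf (.mk (nat_lit 5) (nat_lit 0x80000000e000000180000000000000000000000000000000000000000000) (nat_lit 0x80000000000000001000000600000001e00000014000000000000000000000000000) (.cons (nat_lit 716) (nat_lit 7) (nat_lit 478) (.cons (nat_lit 656) (nat_lit 173) (nat_lit 512) .nil))))
(.leaf (.mk (nat_lit 5) (nat_lit 0x80000000e000000300000000000000000000000000000000000000000000) (nat_lit 0x80000000000000010000000480000001e00000014000000000000000000000000000) (.cons (nat_lit 720) (nat_lit 7) (nat_lit 479) (.cons (nat_lit 687) (nat_lit 169) (nat_lit 512) .nil)))))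
(.node (nat_lit 1)
(.leaf (.mk (nat_lit 3) (nat_lit 0x80000000e000000180000000000000000000000000000000000000000000) (nat_lit 0x80000000000000011000000000000001800000010000000000000000000000000000) (.cons (nat_lit 716) (nat_lit 7) (nat_lit 478) (.cons (nat_lit 656) (nat_lit 167) (nat_lit 512) .nil))))
(.leaf (.mk (nat_lit 2) (nat_lit 0x800000008000000180000001000000000000000000000000000000000000) (nat_lit 0x80000000000000010000000000000000800000010000000000000000000000000000) (.cons (nat_lit 783) (nat_lit 5) (nat_lit 449) (.cons (nat_lit 624) (nat_lit 168) (nat_lit 512) .nil)))))))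
(.node (nat_lit 4)
(.node (nat_lit 2)
(.node (nat_lit 1)
(.leaf (.mk (nat_lit 1) (nat_lit 0x800000008000000180000001000000010000000000000000000000000000) (nat_lit 0x10000000000000000800000000000000000000000000000000000) (.cons (nat_lit 655) (nat_lit 5) (nat_lit 417) (.cons (nat_lit 720) (nat_lit 6) (nat_lit 417) .nil))))
(.leaf (.mk (nat_lit 4) (nat_lit 0x80000000c000000380000000000000000000000000000000000000000000) (nat_lit 0x80000000000000000000000400000001e00000014000000000000000000000000000) (.cons (nat_lit 690) (nat_lit 4) (nat_lit 480) (.cons (nat_lit 656) (nat_lit 170) (nat_lit 512) .nil)))))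
(.node (nat_lit 1)
(.leaf (.mk (nat_lit 3) (nat_lit 0x800000008000000380000001000000000000000000000000000000000000) (nat_lit 0x80000000000000000000000000000000e00000014000000000000000000000000000) (.cons (nat_lit 783) (nat_lit 5) (nat_lit 449) (.cons (nat_lit 655) (nat_lit 171) (nat_lit 512) .nil))))
(.leaf (.mk (nat_lit 2) (nat_lit 0x800000008000000380000001800000000000000000000000000000000000) (nat_lit 0x600000014000000000000000000000000000) (.cons (nat_lit 624) (nat_lit 5) (nat_lit 417) (.cons (nat_lit 654) (nat_lit 172) (nat_lit 512) .nil))))))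
(.node (nat_lit 2)
(.node (nat_lit 1)
(.leaf (.mk (nat_lit 1) (nat_lit 0x800000008000000380000001c00000000000000000000000000000000000) (nat_lit 0x200000004000000000000000000000000000) (.cons (nat_lit 622) (nat_lit 2) (nat_lit 416) (.cons (nat_lit 653) (nat_lit 0) (nat_lit 447) .nil))))
(.leaf (.mk (nat_lit 4) (nat_lit 0x800000008000000180000001000000000000000000000000000000000000) (nat_lit 0x80000000000000000000000600000000e00000014000000000000000000000000000) (.cons (nat_lit 783) (nat_lit 5) (nat_lit 449) (.cons (nat_lit 655) (nat_lit 174) (nat_lit 512) .nil)))))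
(.node (nat_lit 1)
(.leaf (.mk (nat_lit 3) (nat_lit 0x800000008000000180000001800000000000000000000000000000000000) (nat_lit 0x600000000600000014000000000000000000000000000) (.cons (nat_lit 624) (nat_lit 5) (nat_lit 417) (.cons (nat_lit 654) (nat_lit 175) (nat_lit 512) .nil))))
(.leaf (.mk (nat_lit 2) (nat_lit 0x800000008000000180000001c00000000000000000000000000000000000) (nat_lit 0x600000000200000004000000000000000000000000000) (.cons (nat_lit 622) (nat_lit 2) (nat_lit 416) (.cons (nat_lit 689) (nat_lit 176) (nat_lit 512) .nil))))))))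
(.node (nat_lit 8)
(.node (nat_lit 4)
(.node (nat_lit 2)
(.node (nat_lit 1)
(.leaf (.mk (nat_lit 1) (nat_lit 0x380000001c00000000000000000000000000000000000) (nat_lit 0x400000000200000000000000000000000000000000000) (.cons (nat_lit 653) (nat_lit 0) (nat_lit 447) (.cons (nat_lit 690) (nat_lit 1) (nat_lit 448) .nil))))
(.leaf (.mk (nat_lit 3) (nat_lit 0x1e000000010000000000000000000000000000000000000000000) (nat_lit 0x380000001000000028000000000000000000000000000000000000000000) (.cons (nat_lit 685) (nat_lit 1) (nat_lit 478) (.cons (nat_lit 716) (nat_lit 178) (nat_lit 512) .nil)))))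
(.node (nat_lit 1)
(.leaf (.mk (nat_lit 2) (nat_lit 0x1f000000010000000000000000000000000000000000000000000) (nat_lit 0x380000000000000008000000000000000000000000000000000000000000) (.cons (nat_lit 683) (nat_lit 1) (nat_lit 477) (.cons (nat_lit 748) (nat_lit 126) (nat_lit 512) .nil))))
(.leaf (.mk (nat_lit 5) (nat_lit 0x80000000f000000000000000000000000000000000000000000000000000) (nat_lit 0x7c0000070800000380000001000000010000000000000000000000000000) (.cons (nat_lit 715) (nat_lit 185) (nat_lit 512) (.cons (nat_lit 688) (nat_lit 143) (nat_lit 512) (.cons (nat_lit 688) (nat_lit 299) (nat_lit 512) .nil)))))))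
(.node (nat_lit 2)
(.node (nat_lit 1)
(.leaf (.mk (nat_lit 7) (nat_lit 0x80000000f000000000000000000000000000000000000000000000000000) (nat_lit 0x8000000380000007c000000080000003c000000300000003000000000000000000000000000) (.cons (nat_lit 683) (nat_lit 184) (nat_lit 512) (.cons (nat_lit 715) (nat_lit 185) (nat_lit 512) (.cons (nat_lit 748) (nat_lit 291) (nat_lit 512) (.cons (nat_lit 683) (nat_lit 177) (nat_lit 511) .nil))))))
(.leaf (.mk (nat_lit 6) (nat_lit 0x80000000e000000100000000000000000000000000000000000000000000) (nat_lit 0x6000000718000006bc000001e0000001c000000140000000000000000000) (.cons (nat_lit 687) (nat_lit 280) (nat_lit 512) (.cons (nat_lit 716) (nat_lit 281) (nat_lit 512) (.cons (nat_lit 720) (nat_lit 282) (nat_lit 512) (.cons (nat_lit 689) (nat_lit 283) (nat_lit 512) .nil)))))))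
(.node (nat_lit 1)
(.leaf (.mk (nat_lit 8) (nat_lit 0x80000000e000000020000000000000000000000000000000000000000000) (nat_lit 0x40000001d0000001d0000001b00000007c0000070000000798000007f8000003fc000007f8000000700000007000) (.cons (nat_lit 720) (nat_lit 84) (nat_lit 512) (.cons (nat_lit 653) (nat_lit 201) (nat_lit 512) (.cons (nat_lit 720) (nat_lit 120) (nat_lit 513) (.cons (nat_lit 687) (nat_lit 202) (nat_lit 512) .nil))))))
(.leaf (.mk (nat_lit 8) (nat_lit 0x80000000f000000000000000000000000000000000000000000000000000) (nat_lit 0x5c00000008000001bc000001f0000001f000000140000000000000000000) (.cons (nat_lit 683) (nat_lit 184) (nat_lit 512) (.cons (nat_lit 715) (nat_lit 185) (nat_lit 512) (.cons (nat_lit 684) (nat_lit 186) (nat_lit 512) (.cons (nat_lit 683) (nat_lit 177) (nat_lit 511) .nil)))))))))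
(.node (nat_lit 4)
(.node (nat_lit 2)
(.node (nat_lit 1)
(.leaf (.mk (nat_lit 2) (nat_lit 0x80000000f000000008000000000000000000000000000000000000000000) (nat_lit 0x400000000800000014000000000000000000000000000000000000000000) (.cons (nat_lit 684) (nat_lit 1) (nat_lit 477) (.cons (nat_lit 715) (nat_lit 200) (nat_lit 512) .nil))))
(.leaf (.mk (nat_lit 2) (nat_lit 0x80000000f800000000000000000000000000000000000000000000000000) (nat_lit 0x5c0000000000000000000000000000000000000000000000000000000000) (.cons (nat_lit 750) (nat_lit 0) (nat_lit 509) (.cons (nat_lit 747) (nat_lit 126) (nat_lit 511) .nil)))))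
(.node (nat_lit 1)
(.leaf (.mk (nat_lit 7) (nat_lit 0x80000000f000000010000000000000000000000000000000000000000000) (nat_lit 0x5800000000000001a8000001f0000001f000000140000000000000000000) (.cons (nat_lit 683) (nat_lit 1) (nat_lit 477) (.cons (nat_lit 687) (nat_lit 187) (nat_lit 512) .nil))))
(.leaf (.mk (nat_lit 6) (nat_lit 0x80000000f000000090000000000000000000000000000000000000000000) (nat_lit 0x580000000000000120000001f0000001f000000140000000000000000000) (.cons (nat_lit 688) (nat_lit 7) (nat_lit 478) (.cons (nat_lit 655) (nat_lit 188) (nat_lit 512) .nil))))))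
(.node (nat_lit 2)
(.node (nat_lit 1)
(.leaf (.mk (nat_lit 5) (nat_lit 0x80000000f000000090000000800000000000000000000000000000000000) (nat_lit 0x58000000000000002000000170000001f000000140000000000000000000) (.cons (nat_lit 622) (nat_lit 189) (nat_lit 512) (.cons (nat_lit 654) (nat_lit 190) (nat_lit 512) (.cons (nat_lit 623) (nat_lit 191) (nat_lit 512) .nil)))))
(.leaf (.mk (nat_lit 2) (nat_lit 0x80000000c000000080000000800000004000000000000000000000000000) (nat_lit 0x400000000000000000000000400000008000000040000000000000000000) (.cons (nat_lit 654) (nat_lit 2) (nat_lit 416) (.cons (nat_lit 623) (nat_lit 199) (nat_lit 512) .nil)))))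
(.node (nat_lit 1)
(.leaf (.mk (nat_lit 4) (nat_lit 0x80000000f000000090000000c00000000000000000000000000000000000) (nat_lit 0x180000000000000020000001300000017000000000000000000000000000) (.cons (nat_lit 622) (nat_lit 2) (nat_lit 416) (.cons (nat_lit 653) (nat_lit 192) (nat_lit 512) .nil))))
(.leaf (.mk (nat_lit 2) (nat_lit 0x80000000c000000080000000800000008000000000000000000000000000) (nat_lit 0x400000000000000000000001000000010000000100000000000000000000) (.cons (nat_lit 750) (nat_lit 6) (nat_lit 416) (.cons (nat_lit 624) (nat_lit 68) (nat_lit 514) .nil))))))))))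
(.node (nat_lit 32)
(.node (nat_lit 16)
(.node (nat_lit 8)
(.node (nat_lit 4)
(.node (nat_lit 2)
(.node (nat_lit 1)
(.leaf (.mk (nat_lit 3) (nat_lit 0x80000000f000000090000000e00000000000000000000000000000000000) (nat_lit 0x180000000000000020000001100000013000000000000000000000000000) (.cons (nat_lit 656) (nat_lit 193) (nat_lit 512) (.cons (nat_lit 748) (nat_lit 194) (nat_lit 512) (.cons (nat_lit 621) (nat_lit 195) (nat_lit 512) .nil)))))
(.leaf (.mk (nat_lit 1) (nat_lit 0x800000008000000090000001e00000000000000000000000000000000000) (nat_lit 0x20000000000000010000000000000000000000000000) (.cons (nat_lit 624) (nat_lit 5) (nat_lit 417) (.cons (nat_lit 685) (nat_lit 4) (nat_lit 446) .nil)))))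
(.node (nat_lit 1)
(.leaf (.mk (nat_lit 2) (nat_lit 0x10000000f000000010000000200000000000000000000000000000000000) (nat_lit 0x80000000000000020000000100000002000000000000000000000000000) (.cons (nat_lit 747) (nat_lit 4) (nat_lit 509) (.cons (nat_lit 621) (nat_lit 198) (nat_lit 512) .nil))))
(.leaf (.mk (nat_lit 2) (nat_lit 0x80000000f000000090000000e00000002000000000000000000000000000) (nat_lit 0x180000000000000000000001100000011000000000000000000000000000) (.cons (nat_lit 656) (nat_lit 196) (nat_lit 512) (.cons (nat_lit 748) (nat_lit 197) (nat_lit 512) .nil))))))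
(.node (nat_lit 2)
(.node (nat_lit 1)
(.leaf (.mk (nat_lit 1) (nat_lit 0x800000008000000080000001e00000002000000000000000000000000000) (nat_lit 0x11000000000000000000000000000) (.cons (nat_lit 620) (nat_lit 1) (nat_lit 414) (.cons (nat_lit 624) (nat_lit 5) (nat_lit 417) .nil))))
(.leaf (.mk (nat_lit 1) (nat_lit 0x10000000f000000010000000200000002000000000000000000000000000) (nat_lit 0x80000000000000000000000100000000000000000000000000000000000) (.cons (nat_lit 652) (nat_lit 5) (nat_lit 414) (.cons (nat_lit 747) (nat_lit 4) (nat_lit 509) .nil)))))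
(.node (nat_lit 1)
(.leaf (.mk (nat_lit 1) (nat_lit 0x100000003000000010000000200000002000000000000000000000000000) (nat_lit 0x20000000100000000000000000000000000000000000) (.cons (nat_lit 652) (nat_lit 5) (nat_lit 414) (.cons (nat_lit 685) (nat_lit 6) (nat_lit 414) .nil))))
(.leaf (.mk (nat_lit 1) (nat_lit 0xc00000008000000080000000c000000000000000000000000000) (nat_lit 0x400000000000000000000000000000000000000040000000000000000000) (.cons (nat_lit 590) (nat_lit 2) (nat_lit 384) (.cons (nat_lit 750) (nat_lit 6) (nat_lit 416) .nil)))))))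
(.node (nat_lit 4)
(.node (nat_lit 2)
(.node (nat_lit 1)
(.leaf (.mk (nat_lit 1) (nat_lit 0x800000007800000008000000000000000000000000000000000000000000) (nat_lit 0x400000000000000004000000000000000000000000000000000000000000) (.cons (nat_lit 682) (nat_lit 1) (nat_lit 476) (.cons (nat_lit 750) (nat_lit 0) (nat_lit 509) .nil))))
(.leaf (.mk (nat_lit 6) (nat_lit 0x80000000e000000020000000200000000000000000000000000000000000) (nat_lit 0x300000007c0000000000000098000003d00000007c00000070000000700000007000) (.cons (nat_lit 621) (nat_lit 258) (nat_lit 512) (.cons (nat_lit 749) (nat_lit 259) (nat_lit 512) (.cons (nat_lit 621) (nat_lit 260) (nat_lit 512) (.cons (nat_lit 621) (nat_lit 261) (nat_lit 512) (.cons (nat_lit 621) (nat_lit 262) (nat_lit 512) .nil))))))))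
(.node (nat_lit 1)
(.leaf (.mk (nat_lit 7) (nat_lit 0x80000000e0000000a0000000000000000000000000000000000000000000) (nat_lit 0x40000001d0000001d0000001b00000007c0000030000000700000007f8000003f0000007f8000000400000000000) (.cons (nat_lit 688) (nat_lit 203) (nat_lit 512) (.cons (nat_lit 749) (nat_lit 204) (nat_lit 512) (.cons (nat_lit 688) (nat_lit 205) (nat_lit 512) (.cons (nat_lit 622) (nat_lit 206) (nat_lit 512) (.cons (nat_lit 622) (nat_lit 207) (nat_lit 512) .nil)))))))
(.leaf (.mk (nat_lit 3) (nat_lit 0x80000000e000000180000000000000000000000000000000000000000000) (nat_lit 0x80000000000000010000000600000001800000010000000100000000000000000000) (.cons (nat_lit 689) (nat_lit 245) (nat_lit 512) (.cons (nat_lit 656) (nat_lit 229) (nat_lit 546) .nil))))))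
(.node (nat_lit 2)
(.node (nat_lit 1)
(.leaf (.mk (nat_lit 6) (nat_lit 0x20000000e0000000a0000000000000000000000000000000000000000000) (nat_lit 0x1000000010000000300000005c0000010000000100000000f0000001f000000050000000000000000000) (.cons (nat_lit 748) (nat_lit 235) (nat_lit 512) (.cons (nat_lit 653) (nat_lit 251) (nat_lit 512) (.cons (nat_lit 748) (nat_lit 107) (nat_lit 512) .nil)))))
(.leaf (.mk (nat_lit 6) (nat_lit 0x80000000e000000180000000000000000000000000000000000000000000) (nat_lit 0x40000001c0000001c000000180000000400000010000000600000001000000000000000000000000000000000000) (.cons (nat_lit 689) (nat_lit 245) (nat_lit 512) (.cons (nat_lit 783) (nat_lit 246) (nat_lit 512) .nil)))))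
(.node (nat_lit 1)
(.leaf (.mk (nat_lit 6) (nat_lit 0x80000000e0000000a0000000000000004000000000000000000000000000) (nat_lit 0x100000007c0000010000000000000007f0000003b0000007f8000000000000000000) (.cons (nat_lit 653) (nat_lit 231) (nat_lit 512) (.cons (nat_lit 621) (nat_lit 232) (nat_lit 512) (.cons (nat_lit 655) (nat_lit 109) (nat_lit 514) (.cons (nat_lit 654) (nat_lit 233) (nat_lit 512) .nil))))))
(.leaf (.mk (nat_lit 6) (nat_lit 0x80000000e0000000a0000000000000004000000000000000000000000000) (nat_lit 0x100000007c0000000000000100000007f0000003b000000770000000400000000000) (.cons (nat_lit 654) (nat_lit 208) (nat_lit 512) (.cons (nat_lit 653) (nat_lit 209) (nat_lit 512) (.cons (nat_lit 623) (nat_lit 210) (nat_lit 512) (.cons (nat_lit 655) (nat_lit 211) (nat_lit 512) .nil))))))))))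
(.node (nat_lit 8)
(.node (nat_lit 4)
(.node (nat_lit 2)
(.node (nat_lit 1)
(.leaf (.mk (nat_lit 3) (nat_lit 0x80000000a0000000a0000000400000004000000000000000000000000000) (nat_lit 0x200000000000000000000000a00000002000000040000000400000000000) (.cons (nat_lit 655) (nat_lit 2) (nat_lit 416) (.cons (nat_lit 653) (nat_lit 229) (nat_lit 512) .nil))))
(.leaf (.mk (nat_lit 4) (nat_lit 0xe000000020000000200000004000000000000000000000000000) (nat_lit 0x100000007c0000000000000000000000400000002000000040000000400000000000) (.cons (nat_lit 621) (nat_lit 213) (nat_lit 512) (.cons (nat_lit 749) (nat_lit 224) (nat_lit 512) (.cons (nat_lit 590) (nat_lit 225) (nat_lit 512) .nil))))))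
(.node (nat_lit 1)
(.leaf (.mk (nat_lit 5) (nat_lit 0x80000000e0000000a000000000000000c000000000000000000000000000) (nat_lit 0x400000000000000100000007b00000033000000770000000000000000000) (.cons (nat_lit 655) (nat_lit 199) (nat_lit 512) (.cons (nat_lit 621) (nat_lit 212) (nat_lit 512) (.cons (nat_lit 655) (nat_lit 191) (nat_lit 512) (.cons (nat_lit 655) (nat_lit 117) (nat_lit 514) .nil))))))
(.leaf (.mk (nat_lit 3) (nat_lit 0x80000000c000000080000000800000004000000000000000000000000000) (nat_lit 0x400000000000000000000001400000018000000100000000000000000000) (.cons (nat_lit 654) (nat_lit 2) (nat_lit 416) (.cons (nat_lit 623) (nat_lit 191) (nat_lit 512) .nil))))))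
(.node (nat_lit 2)
(.node (nat_lit 1)
(.leaf (.mk (nat_lit 4) (nat_lit 0xe0000000a000000000000000e000000000000000000000000000) (nat_lit 0x400000000000000100000007300000031000000770000000000000000000) (.cons (nat_lit 653) (nat_lit 213) (nat_lit 512) (.cons (nat_lit 624) (nat_lit 214) (nat_lit 512) (.cons (nat_lit 653) (nat_lit 215) (nat_lit 512) .nil)))))
(.leaf (.mk (nat_lit 1) (nat_lit 0x6000000020000000200000006000000000000000000000000000) (nat_lit 0x400000000000000000000000000000000000000040000000000000000000) (.cons (nat_lit 590) (nat_lit 5) (nat_lit 383) (.cons (nat_lit 750) (nat_lit 3) (nat_lit 415) .nil)))))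
(.node (nat_lit 1)
(.leaf (.mk (nat_lit 3) (nat_lit 0x800000008000000000000001e000000000000000000000000000) (nat_lit 0x100000007000000020000000770000000000000000000) (.cons (nat_lit 592) (nat_lit 217) (nat_lit 512) (.cons (nat_lit 625) (nat_lit 218) (nat_lit 512) (.cons (nat_lit 625) (nat_lit 219) (nat_lit 512) .nil)))))
(.leaf (.mk (nat_lit 3) (nat_lit 0x600000002000000020000000e000000000000000000000000000) (nat_lit 0x400000000000000000000000100000011000000030000000000000000000) (.cons (nat_lit 750) (nat_lit 3) (nat_lit 415) (.cons (nat_lit 588) (nat_lit 216) (nat_lit 512) .nil)))))))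
(.node (nat_lit 4)
(.node (nat_lit 2)
(.node (nat_lit 1)
(.leaf (.mk (nat_lit 2) (nat_lit 0x200000002000000020000000e000000010000000000000000000) (nat_lit 0x100000011000000020000000000000000000) (.cons (nat_lit 620) (nat_lit 2) (nat_lit 382) (.cons (nat_lit 624) (nat_lit 45) (nat_lit 416) .nil))))
(.leaf (.mk (nat_lit 2) (nat_lit 0x800000008000000000000001e000000100000000000000000000) (nat_lit 0x100000003000000000000000200000000000000000000) (.cons (nat_lit 593) (nat_lit 7) (nat_lit 383) (.cons (nat_lit 656) (nat_lit 223) (nat_lit 512) .nil)))))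
(.node (nat_lit 1)
(.leaf (.mk (nat_lit 2) (nat_lit 0x3e000000000000000000000000000) (nat_lit 0x7000000000000000070000000000000000000) (.cons (nat_lit 589) (nat_lit 220) (nat_lit 512) (.cons (nat_lit 657) (nat_lit 222) (nat_lit 512) .nil))))
(.leaf (.mk (nat_lit 2) (nat_lit 0x3e000000000000000000000000000) (nat_lit 0x770000000000000000000) (.cons (nat_lit 589) (nat_lit 220) (nat_lit 512) (.cons (nat_lit 593) (nat_lit 221) (nat_lit 512) .nil))))))
(.node (nat_lit 2)
(.node (nat_lit 1)
(.leaf (.mk (nat_lit 1) (nat_lit 0x3e000000020000000000000000000) (nat_lit 0x50000000000000000000) (.cons (nat_lit 588) (nat_lit 1) (nat_lit 382) (.cons (nat_lit 590) (nat_lit 1) (nat_lit 383) .nil))))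
(.leaf (.mk (nat_lit 1) (nat_lit 0x3e000000200000000000000000000) (nat_lit 0x500000000000000000000) (.cons (nat_lit 592) (nat_lit 7) (nat_lit 383) (.cons (nat_lit 594) (nat_lit 7) (nat_lit 384) .nil)))))
(.node (nat_lit 1)
(.leaf (.mk (nat_lit 1) (nat_lit 0x200000003e000000000000000000000000000) (nat_lit 0x5000000000000000000000000000000000000) (.cons (nat_lit 656) (nat_lit 0) (nat_lit 415) (.cons (nat_lit 658) (nat_lit 0) (nat_lit 416) .nil))))
(.leaf (.mk (nat_lit 1) (nat_lit 0x800000008000000100000001e000000100000000000000000000) (nat_lit 0x100000002000000000000000000000000000000000000) (.cons (nat_lit 688) (nat_lit 6) (nat_lit 385) (.cons (nat_lit 657) (nat_lit 0) (nat_lit 415) .nil)))))))))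
(.node (nat_lit 16)
(.node (nat_lit 8)
(.node (nat_lit 4)
(.node (nat_lit 2)
(.node (nat_lit 1)
(.leaf (.mk (nat_lit 3) (nat_lit 0x20000000e000000020000000200000004000000000000000000000000000) (nat_lit 0x100000005c0000000000000000000000400000000000000000000000000000000000) (.cons (nat_lit 654) (nat_lit 5) (nat_lit 415) (.cons (nat_lit 748) (nat_lit 227) (nat_lit 512) .nil))))
(.leaf (.mk (nat_lit 2) (nat_lit 0x2000000020000000200000004000000040000000000000000000) (nat_lit 0x200000000000000000000000400000002000000000000000400000000000) (.cons (nat_lit 621) (nat_lit 5) (nat_lit 383) (.cons (nat_lit 654) (nat_lit 226) (nat_lit 512) .nil)))))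
(.node (nat_lit 1)
(.leaf (.mk (nat_lit 1) (nat_lit 0x2000000020000000600000004000000040000000000000000000) (nat_lit 0x200000000000000000000000000000000000000000000000400000000000) (.cons (nat_lit 558) (nat_lit 6) (nat_lit 351) (.cons (nat_lit 749) (nat_lit 5) (nat_lit 415) .nil))))
(.leaf (.mk (nat_lit 2) (nat_lit 0x30000000e000000020000000200000000000000000000000000000000000) (nat_lit 0x100000004c0000000000000000000000000000000000000000000000000000000000) (.cons (nat_lit 780) (nat_lit 6) (nat_lit 446) (.cons (nat_lit 747) (nat_lit 228) (nat_lit 512) .nil))))))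
(.node (nat_lit 2)
(.node (nat_lit 1)
(.leaf (.mk (nat_lit 1) (nat_lit 0x38000000e000000000000000000000000000000000000000000000000000) (nat_lit 0x440000000000000000000000000000000000000000000000000000000000) (.cons (nat_lit 746) (nat_lit 7) (nat_lit 508) (.cons (nat_lit 750) (nat_lit 7) (nat_lit 509) .nil))))
(.leaf (.mk (nat_lit 2) (nat_lit 0x2000000020000000600000004000000000000000000000000000) (nat_lit 0x200000000000000000000000000000002000000040000000400000000000) (.cons (nat_lit 749) (nat_lit 5) (nat_lit 415) (.cons (nat_lit 590) (nat_lit 230) (nat_lit 512) .nil)))))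
(.node (nat_lit 1)
(.leaf (.mk (nat_lit 1) (nat_lit 0x2000000020000000600000004000000040000000000000000000) (nat_lit 0x2000000000000000400000000000) (.cons (nat_lit 558) (nat_lit 6) (nat_lit 351) (.cons (nat_lit 621) (nat_lit 5) (nat_lit 383) .nil))))
(.leaf (.mk (nat_lit 3) (nat_lit 0xe000000020000000200000004000000000000000000000000000) (nat_lit 0x10000000700000010000000000000000400000002000000040000000000000000000) (.cons (nat_lit 621) (nat_lit 213) (nat_lit 512) (.cons (nat_lit 749) (nat_lit 244) (nat_lit 512) .nil)))))))
(.node (nat_lit 4)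
(.node (nat_lit 2)
(.node (nat_lit 1)
(.leaf (.mk (nat_lit 5) (nat_lit 0x80000000e0000000a0000000000000006000000000000000000000000000) (nat_lit 0x10000000700000010000000000000007b000000390000007f8000000000000000000) (.cons (nat_lit 653) (nat_lit 213) (nat_lit 512) (.cons (nat_lit 623) (nat_lit 236) (nat_lit 512) (.cons (nat_lit 653) (nat_lit 237) (nat_lit 512) (.cons (nat_lit 653) (nat_lit 238) (nat_lit 512) .nil))))))
(.leaf (.mk (nat_lit 4) (nat_lit 0x80000000e0000000a0000000400000004000000000000000000000000000) (nat_lit 0x7c0000010000000000000000a00000000000000000000000000000000000) (.cons (nat_lit 655) (nat_lit 2) (nat_lit 416) (.cons (nat_lit 749) (nat_lit 234) (nat_lit 512) .nil)))))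
(.node (nat_lit 1)
(.leaf (.mk (nat_lit 3) (nat_lit 0x20000000e000000020000000400000004000000000000000000000000000) (nat_lit 0x5c0000010000000000000000200000000000000000000000000000000000) (.cons (nat_lit 653) (nat_lit 5) (nat_lit 415) (.cons (nat_lit 748) (nat_lit 235) (nat_lit 512) .nil))))
(.leaf (.mk (nat_lit 2) (nat_lit 0x30000000e000000000000000000000000000000000000000000000000000) (nat_lit 0x4c0000010000000000000000000000000000000000000000000000000000) (.cons (nat_lit 720) (nat_lit 4) (nat_lit 510) (.cons (nat_lit 747) (nat_lit 228) (nat_lit 512) .nil))))))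
(.node (nat_lit 2)
(.node (nat_lit 1)
(.leaf (.mk (nat_lit 4) (nat_lit 0x80000000c00000008000000000000000e000000000000000000000000000) (nat_lit 0x4000000000000000000000078000000310000007f8000000000000000000) (.cons (nat_lit 655) (nat_lit 199) (nat_lit 512) (.cons (nat_lit 624) (nat_lit 242) (nat_lit 512) (.cons (nat_lit 655) (nat_lit 191) (nat_lit 512) .nil)))))
(.leaf (.mk (nat_lit 4) (nat_lit 0xe000000020000000200000002000000000000000000000000000) (nat_lit 0x10000000700000010000000000000000100000001000000010000000000000000000) (.cons (nat_lit 750) (nat_lit 3) (nat_lit 415) (.cons (nat_lit 620) (nat_lit 239) (nat_lit 512) .nil)))))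
(.node (nat_lit 1)
(.leaf (.mk (nat_lit 4) (nat_lit 0xe000000020000000200000006000000000000000000000000000) (nat_lit 0x10000000300000010000000000000000100000001000000050000000000000000000) (.cons (nat_lit 590) (nat_lit 5) (nat_lit 383) (.cons (nat_lit 620) (nat_lit 239) (nat_lit 512) .nil))))
(.leaf (.mk (nat_lit 3) (nat_lit 0xe000000020000000200000003000000000000000000000000000) (nat_lit 0x10000000300000010000000000000000100000000000000010000000000000000000) (.cons (nat_lit 588) (nat_lit 2) (nat_lit 382) (.cons (nat_lit 749) (nat_lit 240) (nat_lit 512) .nil))))))))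
(.node (nat_lit 8)
(.node (nat_lit 4)
(.node (nat_lit 2)
(.node (nat_lit 1)
(.leaf (.mk (nat_lit 2) (nat_lit 0x20000000e000000020000000200000001000000000000000000000000000) (nat_lit 0x10000000100000010000000000000000100000000000000000000000000000000000) (.cons (nat_lit 652) (nat_lit 2) (nat_lit 414) (.cons (nat_lit 748) (nat_lit 241) (nat_lit 512) .nil))))
(.leaf (.mk (nat_lit 1) (nat_lit 0x30000000e000000020000000200000000000000000000000000000000000) (nat_lit 0x10000000000000010000000000000000000000000000000000000000000000000000) (.cons (nat_lit 780) (nat_lit 6) (nat_lit 446) (.cons (nat_lit 720) (nat_lit 4) (nat_lit 510) .nil)))))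
(.node (nat_lit 1)
(.leaf (.mk (nat_lit 3) (nat_lit 0x1e000000000000000000000000000) (nat_lit 0x70000000210000007f8000000000000000000) (.cons (nat_lit 620) (nat_lit 219) (nat_lit 511) (.cons (nat_lit 625) (nat_lit 243) (nat_lit 512) (.cons (nat_lit 625) (nat_lit 218) (nat_lit 512) .nil)))))
(.leaf (.mk (nat_lit 2) (nat_lit 0x3e000000000000000000000000000) (nat_lit 0x7000000000000000700000000000000000000) (.cons (nat_lit 593) (nat_lit 221) (nat_lit 512) (.cons (nat_lit 657) (nat_lit 222) (nat_lit 512) .nil))))))
(.node (nat_lit 2)
(.node (nat_lit 1)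
(.leaf (.mk (nat_lit 2) (nat_lit 0x20000000e000000020000000200000004000000000000000000000000000) (nat_lit 0x10000000100000010000000000000000400000000000000000000000000000000000) (.cons (nat_lit 654) (nat_lit 5) (nat_lit 415) (.cons (nat_lit 748) (nat_lit 241) (nat_lit 512) .nil))))
(.leaf (.mk (nat_lit 1) (nat_lit 0xe000000380000000000000000000000000000000000000000000) (nat_lit 0x10000000400000000000000000000000000000000000000000000) (.cons (nat_lit 690) (nat_lit 4) (nat_lit 480) (.cons (nat_lit 720) (nat_lit 7) (nat_lit 479) .nil)))))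
(.node (nat_lit 1)
(.leaf (.mk (nat_lit 5) (nat_lit 0x8000000080000000c000000180000000000000000000000000000000000000000000) (nat_lit 0x40000001c0000001c000000100000000400000000000000000000001000000000000000000000000000000000000) (.cons (nat_lit 656) (nat_lit 5) (nat_lit 449) (.cons (nat_lit 816) (nat_lit 247) (nat_lit 512) .nil))))
(.leaf (.mk (nat_lit 4) (nat_lit 0x1000000008000000080000000c000000080000000000000000000000000000000000000000000) (nat_lit 0x40000001c0000000c000000100000000400000000000000000000000000000000000000000000000000000000000) (.cons (nat_lit 784) (nat_lit 3) (nat_lit 481) (.cons (nat_lit 815) (nat_lit 248) (nat_lit 512) .nil)))))))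
(.node (nat_lit 4)
(.node (nat_lit 2)
(.node (nat_lit 1)
(.leaf (.mk (nat_lit 3) (nat_lit 0x1800000008000000080000000c000000000000000000000000000000000000000000000000000) (nat_lit 0x40000001c00000004000000000000000400000000000000000000000000000000000000000000000000000000000) (.cons (nat_lit 848) (nat_lit 3) (nat_lit 513) (.cons (nat_lit 847) (nat_lit 249) (nat_lit 512) .nil))))
(.leaf (.mk (nat_lit 2) (nat_lit 0x80000000800000008000000080000000c000000000000000000000000000000000000000000000000000) (nat_lit 0x40000000400000004000000000000000400000000000000000000000000000000000000000000000000000000000) (.cons (nat_lit 750) (nat_lit 2) (nat_lit 512) (.cons (nat_lit 846) (nat_lit 250) (nat_lit 512) .nil)))))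
(.node (nat_lit 1)
(.leaf (.mk (nat_lit 1) (nat_lit 0xc00000008000000080000000800000008000000000000000000000000000000000000000000000000000) (nat_lit 0x40000000000000004000000000000000000000000000000000000000000000000000000000000000000000000000) (.cons (nat_lit 814) (nat_lit 6) (nat_lit 512) (.cons (nat_lit 878) (nat_lit 6) (nat_lit 544) .nil))))
(.leaf (.mk (nat_lit 5) (nat_lit 0x20000000e0000000a0000000200000000000000000000000000000000000) (nat_lit 0x400000000000000100000000d0000001f000000050000000000000000000) (.cons (nat_lit 620) (nat_lit 252) (nat_lit 512) (.cons (nat_lit 621) (nat_lit 253) (nat_lit 512) (.cons (nat_lit 652) (nat_lit 254) (nat_lit 512) (.cons (nat_lit 620) (nat_lit 109) (nat_lit 512) .nil))))))))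
(.node (nat_lit 2)
(.node (nat_lit 1)
(.leaf (.mk (nat_lit 2) (nat_lit 0x200000006000000020000000200000001000000000000000000000000000) (nat_lit 0x400000000000000000000000100000002000000010000000000000000000) (.cons (nat_lit 652) (nat_lit 2) (nat_lit 414) (.cons (nat_lit 621) (nat_lit 134) (nat_lit 513) .nil))))
(.leaf (.mk (nat_lit 2) (nat_lit 0x200000006000000020000000200000002000000000000000000000000000) (nat_lit 0x400000000000000000000000400000004000000040000000000000000000) (.cons (nat_lit 750) (nat_lit 3) (nat_lit 415) (.cons (nat_lit 622) (nat_lit 68) (nat_lit 512) .nil)))))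
(.node (nat_lit 1)
(.leaf (.mk (nat_lit 4) (nat_lit 0x20000000e0000000a0000000300000000000000000000000000000000000) (nat_lit 0x400000000000000100000000c0000001d000000000000000000000000000) (.cons (nat_lit 620) (nat_lit 2) (nat_lit 414) (.cons (nat_lit 654) (nat_lit 255) (nat_lit 512) .nil))))
(.leaf (.mk (nat_lit 3) (nat_lit 0x20000000e0000000a0000000700000000000000000000000000000000000) (nat_lit 0x40000000000000010000000080000001c000000000000000000000000000) (.cons (nat_lit 622) (nat_lit 5) (nat_lit 415) (.cons (nat_lit 655) (nat_lit 256) (nat_lit 512) .nil))))))))))))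

end Vale.Agent.Snaky.FD
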